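import Vale.Agent.P318.H460.Num4
import Vale.Agent.P318.H682.Code4
import Vale.Agent.P318.H308.Main4
import Vale.Agent.P318.H505.Inst
import Vale.Agent.P318.H283.DSum
import Vale.Agent.P318.H986.SpecCond

/-!
# `SpecCODE4` from the tensor step: assembly
-/

open Finset

namespace Vale.Agent.P318.H460

open Vale.Agent.P318.H937 Vale.Agent.P318.H283 Vale.Agent.P318.H505

/-- the direct-sum step in the form of the recursion -/
theorem dstep {a w J D hc : ℕ} (ha : 2 * w + 2 * J ≤ a) (haD : a ≤ D) (hhc : 1 ≤ hc) :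
    DStep (CodeP a D (2 ^ w) (2 ^ (2 * J + hc))) a w J 5 10 := by
  intro c j N hj hjJ hP
  have h8 : 8 ≤ j := by
    have h1 : 1 ≤ (c + 2 * a + 2) * ((2 * w + 1) * (w + 1)) :=
      Nat.one_le_iff_ne_zero.mpr (by positivity)
    have h2 : 2 ^ 8 ≤ 2 ^ j := by
      calc 2 ^ 8 = 2 ^ 8 * 1 := (mul_one _).symm
        _ ≤ _ := (Nat.mul_le_mul_left _ h1).trans hj
    exact (Nat.pow_le_pow_iff_right (by norm_num)).1 h2
  have hcond := H986.hasCond j w (2 * c + 2 * a) a (by omega) (by omega)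
  have hq1 : 1 ≤ 2 ^ (2 * j) := Nat.one_le_two_pow
  have hloss : 4 * ((2 * c + 2 * a + 2) * ((2 * w + 1) * (w + 1))) ≤ 2 ^ j := by
    refine le_trans ?_ hj
    have h1 : 2 * c + 2 * a + 2 ≤ 2 * (c + 2 * a + 2) := by omega
    calc 4 * ((2 * c + 2 * a + 2) * ((2 * w + 1) * (w + 1)))
        ≤ 4 * ((2 * (c + 2 * a + 2)) * ((2 * w + 1) * (w + 1))) :=
          Nat.mul_le_mul_left _ (Nat.mul_le_mul_right _ h1)
      _ = 8 * ((c + 2 * a + 2) * ((2 * w + 1) * (w + 1))) := by ring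
      _ ≤ 2 ^ 8 * ((c + 2 * a + 2) * ((2 * w + 1) * (w + 1))) :=
          Nat.mul_le_mul_right _ (by norm_num)
  have he := loss_le hloss
  have hh : 2 * 2 ^ (2 * j) ≤ 2 ^ (2 * J + hc) := by
    calc 2 * 2 ^ (2 * j) = 2 ^ (2 * j + 1) := by rw [pow_succ, mul_comm]
      _ ≤ _ := Nat.pow_le_pow_right (by norm_num) (by omega)
  have h6 : 6 ≤ 2 ^ (2 * J + hc) := by
    refine le_trans ?_ hh
    have : 2 ^ 16 ≤ 2 ^ (2 * j) := Nat.pow_le_pow_right (by norm_num) (by omega)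
    omega
  have hP' : CodeP a D (2 ^ w) (2 ^ (2 * J + hc)) (c + a) N :=
    mono_codeP a D (2 ^ w) (2 ^ (2 * J + hc)) _ _ _ _ (by omega) le_rfl hP
  have h := dsum_step hcond (c := c) (by omega) (by omega)
    (by push_cast at he ⊢; linarith) hq1 haD h6 hh hP'
  refine mono_codeP a D (2 ^ w) (2 ^ (2 * J + hc)) _ _ _ _ le_rfl ?_ h
  obtain ⟨q, hq⟩ : ∃ q, q = 2 ^ (2 * j) := ⟨_, rfl⟩
  rw [← hq] at hq1 ⊢
  have hqj : (2 ^ j) ^ 10 = q ^ 5 := by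
    rw [hq, ← pow_mul, ← pow_mul]; congr 1; ring
  rw [hqj]
  have e1 : 4 * q ^ 3 * N * (1 + q) + q ≤ 8 * q ^ 4 * (N + 1) := by
    have e2 : 4 * q ^ 3 * N * (1 + q) ≤ 4 * q ^ 3 * N * (q + q) :=
      Nat.mul_le_mul_left _ (by omega)
    have e3 : 4 * q ^ 3 * N * (q + q) = 8 * q ^ 4 * N := by ring
    have e4 : q ≤ 8 * q ^ 4 := by
      calc q = q ^ 1 := (pow_one q).symm
        _ ≤ q ^ 4 := Nat.pow_le_pow_right hq1 (by norm_num)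
        _ ≤ 8 * q ^ 4 := Nat.le_mul_of_pos_left _ (by norm_num)
    have e5 : 8 * q ^ 4 * (N + 1) = 8 * q ^ 4 * N + 8 * q ^ 4 := by ring
    omega
  calc (4 * q ^ 3 * N * (1 + q) + q) * (1 + 2 * q) ≤ (8 * q ^ 4 * (N + 1)) * (4 * q) :=
        Nat.mul_le_mul e1 (by omega)
    _ = 2 ^ 5 * q ^ 5 * (N + 1) := by ring

/-- `SpecCODE4` from the tensor step -/
theorem spec_code4_of {A2 B2 hc : ℕ} (hhc : 1 ≤ hc)
    (hT : ∀ a w J D : ℕ, 2 * w + 2 * J ≤ a → a ≤ D →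
      TStep (CodeP a D (2 ^ w) (2 ^ (2 * J + hc))) a w J A2 B2) : H308.SpecCODE4 := by
  obtain ⟨C, ℓ0, hnum⟩ := numbers4 (4 * (A2 + 12 * B2 + 3)) (8 * (5 + 1 + 18 * 10)) hc
  refine ⟨C, ℓ0, fun ℓ hℓ => ?_⟩
  obtain ⟨P⟩ := hnum ℓ hℓ
  have haD : P.a ≤ P.D := by have := P.hD; omega
  have hbase : CodeP P.a P.D (2 ^ P.w) (2 ^ (2 * P.J + hc)) P.D 1 := code_base _ _ _ _ _ le_rfl
  have hrec := rec_main (mono_codeP P.a P.D (2 ^ P.w) (2 ^ (2 * P.J + hc))) hbase P.hD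
    (dstep P.hJa haD hhc) (hT P.a P.w P.J P.D P.hJa haD) P.hα3 P.hw P.ha2 (2 * ℓ + 30) P.hα1 P.hα2
    (2 * ℓ + 30) le_rfl
  have hC := hrec (Fin (2 ^ (2 * ℓ + 30)) → ZMod 2) (finrank_V2 _).le
  have hpc : ((2 ^ (2 * ℓ + 30) + 1 : ℕ) : ℝ) ≤ (1 / 2) ^ (6 * ℓ + 80) * (2 ^ (2 * P.j) : ℕ) := by
    have h1 : (((2 ^ (2 * ℓ + 30) + 1) * 2 ^ (6 * ℓ + 80) : ℕ) : ℝ) ≤ ((2 ^ (2 * P.j) : ℕ) : ℝ) := by
      exact_mod_cast P.hpc
    rw [one_div, inv_pow, inv_mul_eq_div, le_div_iff₀ (by positivity)]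
    push_cast at h1 ⊢
    exact h1
  obtain ⟨V, V1, Γ, g, hg⟩ := H682.code4_of_codeFor (2 ^ (2 * ℓ + 30)) P.a
    (2 * P.w + 2 * P.j) P.D P.w (2 ^ (2 * P.J + hc)) _ (2 ^ (2 * ℓ + 20)) (2 ^ P.w) P.j P.W
    ((1 / 2) ^ (6 * ℓ + 80)) P.hj le_rfl P.haa haD P.hloss hpc hC P.hW P.hsize P.h2W le_rfl
  exact ⟨2 ^ (2 * ℓ + 30), P.D, 2 ^ P.w, _, le_rfl,
    Nat.pow_le_pow_right (by norm_num) (by omega), P.hs1, P.hs2, P.hk, P.hdim, _,
    inferInstance, inferInstance, inferInstance, inferInstance, V, V1, Γ, g, hg⟩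

end Vale.Agent.P318.H460
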