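import Vale.Agent.P318.H937.Spec

/-!
# Transport of a node system along an equivalence of seed types
-/

open Finset

namespace Vale.Agent.P318.H460

open Vale.Agent.P318.H937

variable {X : Type} [AddCommGroup X] [Module (ZMod 2) X] {M : ℕ} {Sd Sd' : Type}

/-- change of seeds -/
def reseed (N : NodeSys X M Sd) (σ : Sd' ≃ Sd) : NodeSys X M Sd' where
  anc := N.anc
  anc_gt := N.anc_gt
  anc_trans := N.anc_trans
  anc_chain := N.anc_chain
  op v a := N.op v (σ a)
  comm v w hvw h1 h2 a b x := N.comm v w hvw h1 h2 (σ a) (σ b) x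

lemma reseed_view (N : NodeSys X M Sd) (σ : Sd' ≃ Sd) (R : Finset (Fin M)) (y : Fin M → Sd') :
    (reseed N σ).view R y = N.view R (fun v => σ (y v)) := rfl

lemma reseed_good [Fintype X] [DecidableEq X] (N : NodeSys X M Sd) (σ : Sd' ≃ Sd)
    {n m' dT : ℕ} (h : N.Good n m' dT) : (reseed N σ).Good n m' dT where
  lossless v S U hU := by
    have := h.lossless v (S.map σ.toEmbedding) U hU
    rw [card_map, sum_map] at this
    exact this
  lossless2 v S U hU := by
    have := h.lossless2 v (S.map σ.toEmbedding) U hU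
    rw [card_map, sum_map] at this
    exact this
  kill v x hx S hS := by
    have := h.kill v x hx (S.map σ.toEmbedding) (by
      intro a ha
      obtain ⟨b, hb, rfl⟩ := mem_map.1 ha
      exact hS b hb)
    rwa [card_map] at this
  ext v w hvw h1 h2 Z p GB hGB hq := by
    obtain ⟨u, hu⟩ := h.ext v w hvw h1 h2 (Z.map σ.toEmbedding) (fun z => p (σ.symm z))
      (GB.map σ.toEmbedding) (by rwa [card_map]) (by
        intro b hb
        obtain ⟨b', hb', rfl⟩ := mem_map.1 hb
        obtain ⟨q, hq'⟩ := hq b' hb'
        refine ⟨q, fun z hz => ?_⟩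
        obtain ⟨z', hz', rfl⟩ := mem_map.1 hz
        have := hq' z' hz'
        simpa [reseed] using this)
    refine ⟨u, fun z hz => ?_⟩
    have := hu (σ z) (mem_map_of_mem _ hz)
    simpa [reseed] using this
  dim R hR hR2 y := h.dim R hR hR2 (fun v => σ (y v))

end Vale.Agent.P318.H460
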