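import Vale.Agent.P318.H460.Numbers
import Vale.Agent.P318.H460.Seed
import Vale.Agent.P318.H249.Count

/-!
# `SpecCODE` from the other specifications of Part I
-/

open Finset

namespace Vale.Agent.P318.H460

open Vale.Agent.P318.H937

theorem spec_code (hTree : SpecTREE) (hSample : SpecSAMPLE) (hExact : SpecEXACT)
    (hProps : SpecCODEPROPS) (hHash : SpecHASH) : SpecCODE := by
  obtain ⟨C, ℓ0, hnum⟩ := numbers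
  refine ⟨C, ℓ0, fun ℓ hℓ => ?_⟩
  obtain ⟨P⟩ := hnum ℓ hℓ
  obtain ⟨N', hN'⟩ := hTree P.e P.m' P.n P.Lv P.he P.hm' P.hn P.hLv P.hmen
  have hsd : 2 ^ P.eB * 2 ^ P.eD = 2 ^ P.e := by rw [← pow_add, P.heBD]
  let σ : Fin (2 ^ P.eB) × Fin (2 ^ P.eD) ≃ Fin (2 ^ P.e) :=
    finProdFinEquiv.trans (finCongr hsd)
  let X : Type := (Fin (2 ^ P.Lv) → Fin (P.m' * P.e)) → ZMod 2
  let N : NodeSys X (2 ^ P.Lv - 1) (Fin (2 ^ P.eB) × Fin (2 ^ P.eD)) := reseed N' σ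
  have hN : N.Good P.n P.m' ((P.m' * P.e) ^ (2 * P.Lv + 2)) := reseed_good N' σ hN'
  have hcard : Fintype.card X = 2 ^ ((P.m' * P.e) ^ (2 ^ P.Lv)) := by
    simp [X]
  have h2 : 2 ≤ 2 ^ P.Lv := by
    calc 2 = 2 ^ 1 := rfl
      _ ≤ 2 ^ P.Lv := Nat.pow_le_pow_right (by norm_num) P.hLv
  have hM : 0 < 2 ^ P.Lv - 1 := by omega
  have hBn : 0 < 2 ^ P.eB := by positivity
  have hDn : 0 < 2 ^ P.eD := by positivity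
  obtain ⟨G0, 𝒢, hG0, hconn, hcardG, hcoll⟩ := hSample X (2 ^ P.Lv - 1) P.n P.m' _ (2 ^ P.eB)
    (2 ^ P.eD) ((P.m' * P.e) ^ (2 ^ P.Lv)) P.N0 N hN hcard hM hBn hDn P.hN0 P.hN0'
  have hne : 𝒢.Nonempty := ⟨_, hG0 ⟨0, P.hN0⟩⟩
  have hMv : Nat.card (PairT N 𝒢) ≤ (((2 ^ P.Lv - 1) + 1) ^ 2 *
      (P.N0 * ((2 ^ P.Lv - 1) + 1) + 1) * (2 ^ P.eD) ^ (2 ^ P.Lv - 1)) ^ 2 :=
    H249.card_pairT_le' N 𝒢 hcardG
  have hs' : 1024 * (Nat.card (PairT N 𝒢) * 2 ^ (2 * ℓ + 20)) ≤ 2 ^ (2 * P.s1) :=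
    (Nat.mul_le_mul_left _ (Nat.mul_le_mul_right _ hMv)).trans P.hs
  have hmv' : 1024 * (Nat.card (PairT N 𝒢) * 2 ^ (2 * ℓ + 20)) ≤ 2 ^ P.m' :=
    (Nat.mul_le_mul_left _ (Nat.mul_le_mul_right _ hMv)).trans P.hmv
  have hE := hExact X (2 ^ P.Lv - 1) P.n P.m' _ (2 ^ P.eB) (2 ^ P.eD) (2 * P.s1)
    (2 ^ (2 * ℓ + 20)) N hN P.hD P.hnD P.hm' 𝒢 hne hconn P.hs8 hs' hmv'
  obtain ⟨p1, p2, p3, p4, p5, p6, p7, p8⟩ := hProps X (2 ^ P.Lv - 1) P.n P.m' _ (2 ^ P.eB)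
    (2 ^ P.eD) (2 * P.s1) P.s1 ((P.m' * P.e) ^ (2 ^ P.Lv)) (2 ^ P.s1) N hN hcard P.hD P.hnD 𝒢 hne
    le_rfl P.hk le_rfl
  set p : ℝ := (4 * (((2 ^ P.Lv - 1 : ℕ) : ℝ) * P.n)) /
    ((2 ^ P.eB : ℕ) * (2 ^ P.eD : ℕ)) with hp
  have hcoll' : ∀ x : X, x ≠ 0 →
      ((univ.filter fun ij : Fin P.N0 × (Fin (2 ^ P.Lv - 1) → Fin (2 ^ P.eD)) =>
        N.view ∅ (fun v => (G0 ij.1 v, ij.2 v)) x = 0).card : ℝ) ≤
      p * (P.N0 * ((2 ^ P.eD : ℕ) : ℝ) ^ (2 ^ P.Lv - 1)) := by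
    intro x hx
    have h := hcoll x hx
    have hpos : (0 : ℝ) < ((2 ^ P.eB : ℕ) : ℝ) * ((2 ^ P.eD : ℕ) : ℝ) := by positivity
    rw [hp, div_mul_eq_mul_div, le_div_iff₀ hpos]
    refine h.trans (le_of_eq ?_)
    ring
  obtain ⟨Θ, hΘ1, hΘ2, t, h, hh1, hh2⟩ := hHash X (2 ^ P.Lv - 1) P.n P.m' _ (2 ^ P.eB)
    (2 ^ P.eD) (2 * P.s1) P.s1 P.l P.N0 N hN hDn P.hN0 𝒢 G0 hG0 p hcoll' le_rfl P.hl
  refine ⟨(P.m' * P.e) ^ (2 ^ P.Lv), 2 * P.s1, 2 ^ P.s1, _, P.hκ1, P.hκ2, P.hs1, P.hs2, P.hk1,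
    P.hdim, X, inferInstance, inferInstance, inferInstance, inferInstance,
    codeV N 𝒢 (2 * P.s1), codeV1 N 𝒢 P.s1, TestT N 𝒢 (2 * P.s1), testF N 𝒢 (2 * P.s1), ?_⟩
  exact {
    card := hcard
    fin := H249.finite_testT N 𝒢 _
    ne := H249.nonempty_testT N hne hDn _
    trans := p1
    one := p2
    test := p3
    dens := p4
    exact := hE
    le := p5
    indep := p6
    hash := ⟨Θ, hΘ1, hΘ2, t, h, fun x x' hxx' => (hh1 x x' hxx').trans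
      (mul_le_mul_of_nonneg_right P.hp (Nat.cast_nonneg _)), hh2⟩
    deg := p7
    dim := p8.trans (Nat.mul_le_mul_right _ hMv) }

end Vale.Agent.P318.H460
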