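import Vale.Agent.P318.H770.Meas
import Vale.Agent.P318.H664.Vec

/-!
# Gluing of two blocks of a direct sum

`P z` lives on (block 1, compressed block 2), `Q z'` on (compressed block 1, block 2); if they are
consistent and small they come from one small measure on (block 1, block 2).
-/

open Finset hiding mem_sup sup

namespace Vale.Agent.P318.H460

open Vale.Agent.P318.H770 Vale.Agent.P318.Vec

section basics

variable {X Y : Type*} [Fintype X] [DecidableEq X] [DecidableEq Y]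

/-- point mass -/
def pt {X : Type*} [DecidableEq X] (x : X) : X → ZMod 2 := Pi.single x 1

lemma push_pt (f : X → Y) (x : X) : push f (pt x) = pt (f x) := by
  funext y
  unfold push pt
  by_cases h : f x = y
  · subst h
    rw [Pi.single_eq_same, sum_eq_single x]
    · rw [Pi.single_eq_same]
    · intro b _ hb; exact Pi.single_eq_of_ne hb _
    · intro hx
      exact absurd (show x ∈ univ.filter fun x' => f x' = f x from
        mem_filter.2 ⟨mem_univ x, rfl⟩) hx
  · rw [Pi.single_eq_of_ne (fun h' => h h'.symm)]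
    refine sum_eq_zero fun b hb => ?_
    refine Pi.single_eq_of_ne ?_ _
    rintro rfl
    exact h (mem_filter.1 hb).2

omit [Fintype X] in
lemma pt_apply_ne {x y : X} (h : y ≠ x) : pt x y = 0 := Pi.single_eq_of_ne h _

omit [Fintype X] in
lemma pt_self (x : X) : pt x x = 1 := Pi.single_eq_same _ _

lemma sz_pt_le (x : X) : sz (pt x) ≤ 1 := by
  unfold sz
  rw [card_le_one]
  intro a ha b hb
  rw [mem_sup] at ha hb
  have h1 : a = x := by by_contra h; exact ha (pt_apply_ne h)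
  have h2 : b = x := by by_contra h; exact hb (pt_apply_ne h)
  rw [h1, h2]

lemma sz_add_pt_le (μ : X → ZMod 2) (x : X) : sz (μ + pt x) ≤ sz μ + 1 :=
  (sz_add_le _ _).trans (Nat.add_le_add_left (sz_pt_le x) _)

lemma sz_add_pt_of_mem (μ : X → ZMod 2) (x : X) (hx : μ x ≠ 0) : sz (μ + pt x) + 1 ≤ sz μ := by
  unfold sz
  have h : sup (μ + pt x) ⊆ (sup μ).erase x := by
    intro y hy
    rw [mem_sup, Pi.add_apply] at hy
    rw [mem_erase, mem_sup]
    by_cases hyx : y = x
    · subst hyx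
      exfalso
      apply hy
      rw [pt_self, ne_zero_iff_one.1 hx]
      decide
    · refine ⟨hyx, ?_⟩
      rwa [pt_apply_ne hyx, add_zero] at hy
  have h2 := card_le_card h
  rw [card_erase_of_mem (mem_sup.2 hx)] at h2
  have h3 : 0 < (sup μ).card := card_pos.2 ⟨x, mem_sup.2 hx⟩
  omega

/-- a lossless family stays lossless with labels on the right -/
lemma less_right {ι C A B : Type*} [DecidableEq A] [DecidableEq B] [DecidableEq C]
    {E : ι → C → A} {S : Finset ι}
    {W ℓ : ℕ} (h : Less E S W ℓ) :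
    Less (fun z (p : C × B) => (E z p.1, p.2)) S W ℓ := by
  classical
  intro U hU
  have hfib : ∀ z, (U.image fun p : C × B => (E z p.1, p.2)).card =
      ∑ b ∈ U.image Prod.snd, (((U.filter fun p => p.2 = b).image Prod.fst).image (E z)).card := by
    intro z
    rw [card_eq_sum_card_fiberwise (f := Prod.snd) (t := U.image Prod.snd)]
    · refine sum_congr rfl fun b hb => ?_
      rw [← card_image_of_injOn (s := (U.image fun p : C × B => (E z p.1, p.2)).filter
        fun r => r.2 = b) (f := Prod.fst)]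
      · congr 1
        ext a
        simp only [mem_image, mem_filter]
        constructor
        · rintro ⟨r, ⟨⟨p, hp, rfl⟩, hr⟩, rfl⟩
          exact ⟨p.1, ⟨p, ⟨hp, hr⟩, rfl⟩, rfl⟩
        · rintro ⟨c, ⟨p, ⟨hp, hpb⟩, rfl⟩, rfl⟩
          exact ⟨(E z p.1, p.2), ⟨⟨p, hp, rfl⟩, hpb⟩, rfl⟩
      · intro r hr r' hr' h
        have h1 := (mem_filter.1 hr).2
        have h2 := (mem_filter.1 hr').2
        exact Prod.ext h (h1.trans h2.symm)
    · intro r hr
      obtain ⟨p, hp, rfl⟩ := mem_image.1 hr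
      exact mem_image_of_mem _ hp
  have hcard : U.card = ∑ b ∈ U.image Prod.snd, ((U.filter fun p => p.2 = b).image Prod.fst).card := by
    rw [card_eq_sum_card_image Prod.snd U]
    refine sum_congr rfl fun b hb => ?_
    rw [card_image_of_injOn]
    intro p hp p' hp' hpp
    exact Prod.ext hpp ((mem_filter.1 hp).2.trans (mem_filter.1 hp').2.symm)
  simp_rw [hfib]
  rw [hcard, sum_comm, mul_sum, mul_sum, ← sum_add_distrib]
  refine sum_le_sum fun b hb => ?_
  refine h _ (le_trans ?_ hU)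
  exact card_image_le.trans (card_le_card (filter_subset _ _))

/-- ... and on the left -/
lemma less_left {ι C A B : Type*} [DecidableEq A] [DecidableEq B] [DecidableEq C]
    {E : ι → C → A} {S : Finset ι}
    {W ℓ : ℕ} (h : Less E S W ℓ) :
    Less (fun z (p : B × C) => (p.1, E z p.2)) S W ℓ := by
  classical
  intro U hU
  have h1 := less_right (B := B) h (U.image Prod.swap) (by
    rw [card_image_of_injective _ Prod.swap_injective]; exact hU)
  rw [card_image_of_injective _ Prod.swap_injective] at h1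
  refine h1.trans (le_of_eq ?_)
  congr 1
  refine sum_congr rfl fun z _ => ?_
  rw [image_image, ← card_image_of_injective _ Prod.swap_injective, image_image]
  rfl

/-- number of isolated elements -/
lemma less_iso {ι C A : Type*} [DecidableEq A] [DecidableEq C] {E : ι → C → A} {S : Finset ι}
    {W ℓ : ℕ} (h : Less E S W ℓ) (U : Finset C) (hU : U.card ≤ W) :
    S.card * U.card ≤ ∑ z ∈ S, (iso (E z) U).card + 2 * ℓ * U.card := by
  have h1 := h U hU
  have h2 : ∑ z ∈ S, 2 * (U.image (E z)).card ≤ ∑ z ∈ S, (U.card + (iso (E z) U).card) :=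
    sum_le_sum fun z _ => two_mul_card_image_le _ _
  rw [← mul_sum, sum_add_distrib, sum_const, smul_eq_mul] at h2
  nlinarith

/-- number of non-isolated elements -/
lemma less_noniso {ι C A : Type*} [DecidableEq A] [DecidableEq C] {E : ι → C → A} {S : Finset ι}
    {W ℓ : ℕ} (h : Less E S W ℓ) (U : Finset C) (hU : U.card ≤ W) :
    ∑ z ∈ S, (U \ iso (E z) U).card ≤ 2 * ℓ * U.card := by
  have h1 := less_iso h U hU
  have h2 : ∀ z ∈ S, (U \ iso (E z) U).card + (iso (E z) U).card = U.card := by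
    intro z hz
    have hsub : iso (E z) U ⊆ U := fun x hx => (mem_iso.1 hx).1
    rw [card_sdiff_of_subset hsub]
    have := card_le_card hsub
    omega
  have h3 : ∑ z ∈ S, (U \ iso (E z) U).card + ∑ z ∈ S, (iso (E z) U).card = S.card * U.card := by
    rw [← sum_add_distrib, sum_congr rfl h2, sum_const, smul_eq_mul]
  omega

/-- size of push-forwards -/
lemma less_push {ι C A : Type*} [Fintype C] [Fintype A] [DecidableEq A] [DecidableEq C]
    {E : ι → C → A} {S : Finset ι}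
    {W ℓ : ℕ} (h : Less E S W ℓ) (μ : C → ZMod 2) (hU : sz μ ≤ W) :
    S.card * sz μ ≤ ∑ z ∈ S, sz (push (E z) μ) + 2 * ℓ * sz μ :=
  (less_iso h (sup μ) hU).trans (Nat.add_le_add_right
    (sum_le_sum fun z _ => card_iso_le_sz_push _ _) _)

/-- dominant elements of the classes of a lossless family -/
lemma exists_dom {ι C A : Type*} [DecidableEq A] [DecidableEq C] [Nonempty C]
    {E : ι → C → A} {S : Finset ι}
    {W ℓ : ℕ} (h : Less E S W ℓ) (w : C → ℕ) (Z : Finset C) (hZ : Z.card ≤ W) :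
    ∃ dom : ι → A → C, ∑ z ∈ S, ∑ y ∈ Z with y ≠ dom z (E z y), w y ≤ ℓ * ∑ y ∈ Z, w y := by
  classical
  have hex : ∀ z a, ∃ c : C, a ∈ Z.image (E z) →
      c ∈ Z ∧ E z c = a ∧ (Z.filter fun y => E z y = a).sup w = w c := by
    intro z a
    by_cases ha : a ∈ Z.image (E z)
    · obtain ⟨y, hy, hya⟩ := mem_image.1 ha
      obtain ⟨c, hc, hc'⟩ := Finset.exists_mem_eq_sup (Z.filter fun y => E z y = a)
        ⟨y, mem_filter.2 ⟨hy, hya⟩⟩ w
      exact ⟨c, fun _ => ⟨(mem_filter.1 hc).1, (mem_filter.1 hc).2, hc'⟩⟩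
    · exact ⟨Classical.arbitrary C, fun h => absurd h ha⟩
  choose dom hdom using hex
  refine ⟨dom, ?_⟩
  have h1 := weighted E S W ℓ h Z hZ w
  have h2 : ∀ z ∈ S, ∑ a ∈ Z.image (E z), (Z.filter (fun y => E z y = a)).sup w ≤
      ∑ y ∈ Z with y = dom z (E z y), w y := by
    intro z _
    have e1 : ∑ a ∈ Z.image (E z), (Z.filter (fun y => E z y = a)).sup w =
        ∑ y ∈ (Z.image (E z)).image (dom z), w y := by
      have e0 : ∑ y ∈ (Z.image (E z)).image (dom z), w y = ∑ a ∈ Z.image (E z), w (dom z a) := by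
        refine sum_image fun a ha b hb hab => ?_
        rw [← (hdom z a ha).2.1, hab, (hdom z b hb).2.1]
      rw [e0]
      exact sum_congr rfl fun a ha => (hdom z a ha).2.2
    rw [e1]
    refine sum_le_sum_of_subset fun y hy => ?_
    obtain ⟨a, ha, rfl⟩ := mem_image.1 hy
    obtain ⟨h3, h4, _⟩ := hdom z a ha
    rw [mem_filter]
    exact ⟨h3, by rw [h4]⟩
  have h3 : ∀ z ∈ S, ∑ y ∈ Z with y = dom z (E z y), w y + ∑ y ∈ Z with y ≠ dom z (E z y), w y =
      ∑ y ∈ Z, w y := fun z _ => sum_filter_add_sum_filter_not _ _ _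
  have h4 : ∑ z ∈ S, ∑ y ∈ Z with y = dom z (E z y), w y +
      ∑ z ∈ S, ∑ y ∈ Z with y ≠ dom z (E z y), w y = S.card * ∑ y ∈ Z, w y := by
    rw [← sum_add_distrib, sum_congr rfl h3, sum_const, smul_eq_mul]
  have h5 := sum_le_sum h2
  omega

end basics

section glue

variable {C1 C2 A1 A2 ι1 ι2 : Type*} [Fintype C1] [Fintype C2] [Fintype A1] [Fintype A2]
  [DecidableEq C1] [DecidableEq C2] [DecidableEq A1] [DecidableEq A2]
  {E1 : ι1 → C1 → A1} {E2 : ι2 → C2 → A2} {S1 : Finset ι1} {S2 : Finset ι2}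
  {W0 ℓ1 ℓ2 : ℕ}

/-- the number of bad triples -/
lemma bad_le (h1 : Less E1 S1 W0 ℓ1) (P : ι2 → C1 × A2 → ZMod 2) (Q : ι1 → A1 × C2 → ZMod 2)
    (hP : ∀ z ∈ S2, sz (P z) ≤ W0)
    (hcons : ∀ z' ∈ S1, ∀ z ∈ S2, push (fun p : C1 × A2 => (E1 z' p.1, p.2)) (P z) =
      push (fun q : A1 × C2 => (q.1, E2 z q.2)) (Q z'))
    (dom : ι2 → A2 → C2)
    (hdom : ∑ z ∈ S2, ∑ z' ∈ S1, ((sup (Q z')).filter fun q => q.2 ≠ dom z (E2 z q.2)).card ≤
      ℓ2 * ∑ z' ∈ S1, sz (Q z')) :
    ∑ z ∈ S2, ∑ p ∈ sup (P z), (S1.filter fun z' => Q z' (E1 z' p.1, dom z p.2) = 0).card ≤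
      2 * ℓ1 * ∑ z ∈ S2, sz (P z) + ℓ2 * ∑ z' ∈ S1, sz (Q z') := by
  classical
  have hL := less_right (B := A2) h1
  have key : ∀ z ∈ S2, ∀ z' ∈ S1,
      ((sup (P z)).filter fun p => Q z' (E1 z' p.1, dom z p.2) = 0).card ≤
      (sup (P z) \ iso (fun p : C1 × A2 => (E1 z' p.1, p.2)) (sup (P z))).card +
      ((sup (Q z')).filter fun q => q.2 ≠ dom z (E2 z q.2)).card := by
    intro z hz z' hz'
    set f1 : C1 × A2 → A1 × A2 := fun p => (E1 z' p.1, p.2) with hf1
    set f2 : A1 × C2 → A1 × A2 := fun q => (q.1, E2 z q.2) with hf2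
    set F := (sup (P z)).filter fun p => Q z' (E1 z' p.1, dom z p.2) = 0 with hF
    have hsplit : F.card ≤ (sup (P z) \ iso f1 (sup (P z))).card +
        (F ∩ iso f1 (sup (P z))).card := by
      rw [← card_sdiff_add_card_inter F (iso f1 (sup (P z)))]
      exact Nat.add_le_add_right (card_le_card (sdiff_subset_sdiff (filter_subset _ _) le_rfl)) _
    refine hsplit.trans (Nat.add_le_add_left ?_ _)
    have hq : ∀ p ∈ F ∩ iso f1 (sup (P z)), ∃ q ∈ sup (Q z'), f2 q = f1 p := by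
      intro p hp
      obtain ⟨_, hp2⟩ := mem_inter.1 hp
      obtain ⟨hp3, hp4⟩ := mem_iso.1 hp2
      have h : push f1 (P z) (f1 p) ≠ 0 := push_of_isolated f1 (P z) (mem_sup.1 hp3)
        fun x' hx' h => hp4 x' (mem_sup.2 hx') h
      rw [hcons z' hz' z hz] at h
      obtain ⟨q, hq, hq'⟩ := mem_image.1 (sup_push_subset f2 (Q z') (mem_sup.2 h))
      exact ⟨q, hq, hq'⟩
    rcases (F ∩ iso f1 (sup (P z))).eq_empty_or_nonempty with he | ⟨p0, hp0⟩
    · rw [he, card_empty]; exact Nat.zero_le _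
    obtain ⟨q0, _⟩ := hq p0 hp0
    have : Nonempty (A1 × C2) := ⟨q0⟩
    choose! g hg hg' using hq
    refine card_le_card_of_injOn g ?_ ?_
    · intro p hp
      rw [mem_coe] at hp ⊢
      rw [mem_filter]
      refine ⟨hg p hp, fun heq => ?_⟩
      have h2 := hg' p hp
      have h3 : (g p).1 = E1 z' p.1 := congrArg Prod.fst h2
      have h4 : E2 z (g p).2 = p.2 := congrArg Prod.snd h2
      have h5 := (mem_filter.1 (mem_inter.1 hp).1).2
      rw [h4] at heq
      have h6 : g p = (E1 z' p.1, dom z p.2) := Prod.ext h3 heq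
      have h7 := mem_sup.1 (hg p hp)
      rw [h6] at h7
      exact h7 h5
    · intro p hp p' hp' hpp
      rw [mem_coe] at hp hp'
      have h2 := hg' p hp
      rw [hpp, hg' p' hp'] at h2
      have h3 := mem_iso.1 (mem_inter.1 hp).2
      have h4 := mem_iso.1 (mem_inter.1 hp').2
      exact (h3.2 p' h4.1 h2).symm
  have hswap : ∑ z ∈ S2, ∑ p ∈ sup (P z),
      (S1.filter fun z' => Q z' (E1 z' p.1, dom z p.2) = 0).card =
      ∑ z ∈ S2, ∑ z' ∈ S1,
        ((sup (P z)).filter fun p => Q z' (E1 z' p.1, dom z p.2) = 0).card := by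
    refine sum_congr rfl fun z _ => ?_
    simp_rw [card_filter]
    rw [sum_comm]
  rw [hswap]
  calc _ ≤ ∑ z ∈ S2, ∑ z' ∈ S1,
        ((sup (P z) \ iso (fun p : C1 × A2 => (E1 z' p.1, p.2)) (sup (P z))).card +
        ((sup (Q z')).filter fun q => q.2 ≠ dom z (E2 z q.2)).card) :=
        sum_le_sum fun z hz => sum_le_sum fun z' hz' => key z hz z' hz'
    _ = ∑ z ∈ S2, ∑ z' ∈ S1,
        (sup (P z) \ iso (fun p : C1 × A2 => (E1 z' p.1, p.2)) (sup (P z))).card +
        ∑ z ∈ S2, ∑ z' ∈ S1, ((sup (Q z')).filter fun q => q.2 ≠ dom z (E2 z q.2)).card := by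
        simp_rw [sum_add_distrib]
    _ ≤ _ := by
        refine Nat.add_le_add ?_ hdom
        rw [mul_sum]
        exact sum_le_sum fun z hz => less_noniso hL _ (hP z hz)

omit [Fintype C1] [Fintype A2] [DecidableEq C1] [DecidableEq A2] in
/-- counting a family of finite sets by the second coordinate -/
lemma sum_by_snd {D1 D2 : Type*} [DecidableEq D2] (S1 : Finset ι1) (F : ι1 → Finset (D1 × D2))
    (Z : Finset D2) (hZ : ∀ z' ∈ S1, ∀ q ∈ F z', q.2 ∈ Z) (c : D2 → Prop) [DecidablePred c] :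
    ∑ y ∈ Z with c y, ∑ z' ∈ S1, ((F z').filter fun q => q.2 = y).card =
      ∑ z' ∈ S1, ((F z').filter fun q => c q.2).card := by
  rw [sum_comm]
  refine sum_congr rfl fun z' hz' => ?_
  have h3 : ((F z').filter fun q => c q.2).card =
      ∑ y ∈ Z with c y, (((F z').filter fun q => c q.2).filter fun q => q.2 = y).card := by
    refine card_eq_sum_card_fiberwise fun q hq => ?_
    rw [mem_coe] at hq ⊢
    obtain ⟨hq1, hq2⟩ := mem_filter.1 hq
    exact mem_filter.2 ⟨hZ z' hz' q hq1, hq2⟩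
  rw [h3]
  refine sum_congr rfl fun y hy => ?_
  congr 1
  ext q
  simp only [mem_filter]
  constructor
  · rintro ⟨h4, h5⟩
    exact ⟨⟨h4, by rw [h5]; exact (mem_filter.1 hy).2⟩, h5⟩
  · rintro ⟨⟨h4, _⟩, h5⟩
    exact ⟨h4, h5⟩

/-- dominant elements for the second coordinates of a family of finite sets -/
lemma exists_dom' {ι D1 D2 A : Type*} [DecidableEq D2] [DecidableEq A] [Nonempty D2]
    {E : ι → D2 → A} {S : Finset ι} {W ℓ : ℕ} (h2 : Less E S W ℓ) (S1 : Finset ι1)
    (F : ι1 → Finset (D1 × D2)) (hQ : ∑ z' ∈ S1, (F z').card ≤ W) :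
    ∃ dom : ι → A → D2,
    ∑ z ∈ S, ∑ z' ∈ S1, ((F z').filter fun q => q.2 ≠ dom z (E z q.2)).card ≤
      ℓ * ∑ z' ∈ S1, (F z').card := by
  classical
  obtain ⟨Z, hZ⟩ : ∃ Z : Finset D2, Z = S1.biUnion fun z' => (F z').image Prod.snd := ⟨_, rfl⟩
  have hZc : Z.card ≤ W := by
    rw [hZ]
    exact (card_biUnion_le.trans (sum_le_sum fun z' _ => card_image_le)).trans hQ
  have hZm : ∀ z' ∈ S1, ∀ q ∈ F z', q.2 ∈ Z := by
    intro z' hz' q hq
    rw [hZ]
    exact mem_biUnion.2 ⟨z', hz', mem_image_of_mem _ hq⟩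
  obtain ⟨dom, hdom⟩ := exists_dom h2
    (fun y => ∑ z' ∈ S1, ((F z').filter fun q => q.2 = y).card) Z hZc
  have htot : ∑ y ∈ Z, ∑ z' ∈ S1, ((F z').filter fun q => q.2 = y).card =
      ∑ z' ∈ S1, (F z').card := by
    have := sum_by_snd S1 F Z hZm (fun _ => True)
    simpa using this
  refine ⟨dom, ?_⟩
  rw [htot] at hdom
  refine le_trans (le_of_eq ?_) hdom
  refine sum_congr rfl fun z _ => ?_
  exact (sum_by_snd S1 F Z hZm fun y => y ≠ dom z (E z y)).symm

/-- **gluing of two blocks**, inductive form -/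
lemma glue_aux (h1 : Less E1 S1 W0 ℓ1) (h2 : Less E2 S2 W0 ℓ2)
    (hn1 : 16 * ℓ1 < S1.card) (hn2 : 16 * ℓ2 < S2.card) (B : ℕ) (hB : S1.card * B ≤ W0) :
    ∀ (k : ℕ) (P : ι2 → C1 × A2 → ZMod 2) (Q : ι1 → A1 × C2 → ZMod 2),
    (∀ z ∈ S2, sz (P z) + k ≤ B) → (∀ z' ∈ S1, sz (Q z') + k ≤ B) →
    (∀ z' ∈ S1, ∀ z ∈ S2, push (fun p : C1 × A2 => (E1 z' p.1, p.2)) (P z) =
      push (fun q : A1 × C2 => (q.1, E2 z q.2)) (Q z')) →
    2 * ∑ z' ∈ S1, sz (Q z') ≤ k * S1.card →
    ∃ U : C1 × C2 → ZMod 2, sz U ≤ k ∧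
      (∀ z ∈ S2, push (fun u : C1 × C2 => (u.1, E2 z u.2)) U = P z) ∧
      ∀ z' ∈ S1, push (fun u : C1 × C2 => (E1 z' u.1, u.2)) U = Q z' := by
  classical
  have hBW : B ≤ W0 := by
    have : 1 ≤ S1.card := by omega
    nlinarith
  have hL1 := less_right (B := A2) h1
  have hL2 := less_left (B := A1) h2
  -- the case where everything is zero
  have hzero : ∀ (P : ι2 → C1 × A2 → ZMod 2) (Q : ι1 → A1 × C2 → ZMod 2),
      (∀ z ∈ S2, sz (P z) ≤ B) →
      (∀ z' ∈ S1, ∀ z ∈ S2, push (fun p : C1 × A2 => (E1 z' p.1, p.2)) (P z) =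
      push (fun q : A1 × C2 => (q.1, E2 z q.2)) (Q z')) →
      ∑ z' ∈ S1, sz (Q z') = 0 → (∀ z ∈ S2, P z = 0) ∧ ∀ z' ∈ S1, Q z' = 0 := by
    intro P Q hP hc h0
    have hQ0 : ∀ z' ∈ S1, Q z' = 0 := fun z' hz' => sz_eq_zero.1 (sum_eq_zero_iff.1 h0 z' hz')
    refine ⟨fun z hz => ?_, hQ0⟩
    have h3 := less_push hL1 (P z) ((hP z hz).trans hBW)
    have h4 : ∑ z' ∈ S1, sz (push (fun p : C1 × A2 => (E1 z' p.1, p.2)) (P z)) = 0 := by
      refine sum_eq_zero fun z' hz' => ?_
      rw [hc z' hz' z hz, hQ0 z' hz', push_zero, sz_zero]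
    rw [h4, zero_add] at h3
    rw [← sz_eq_zero]
    by_contra hne
    have h5 : 0 < sz (P z) := Nat.pos_of_ne_zero hne
    have h6 := Nat.le_of_mul_le_mul_right h3 h5
    omega
  intro k
  induction k with
  | zero =>
    intro P Q hP hQ hc hk
    have h0 : ∑ z' ∈ S1, sz (Q z') = 0 := by omega
    obtain ⟨hP0, hQ0⟩ := hzero P Q (fun z hz => by simpa using hP z hz) hc h0
    refine ⟨0, by simp, fun z hz => ?_, fun z' hz' => ?_⟩
    · rw [push_zero, hP0 z hz]
    · rw [push_zero, hQ0 z' hz']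
  | succ k ih =>
    intro P Q hP hQ hc hk
    by_cases h0 : ∑ z' ∈ S1, sz (Q z') = 0
    · obtain ⟨hP0, hQ0⟩ := hzero P Q (fun z hz => by have := hP z hz; omega) hc h0
      refine ⟨0, by simp, fun z hz => ?_, fun z' hz' => ?_⟩
      · rw [push_zero, hP0 z hz]
      · rw [push_zero, hQ0 z' hz']
    obtain ⟨NQ, hNQ⟩ : ∃ NQ, NQ = ∑ z' ∈ S1, sz (Q z') := ⟨_, rfl⟩
    obtain ⟨NP, hNP⟩ : ∃ NP, NP = ∑ z ∈ S2, sz (P z) := ⟨_, rfl⟩
    rw [← hNQ] at h0 hk
    -- comparison of the totals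
    have hcomp : S2.card * NQ ≤ S1.card * NP + 2 * ℓ2 * NQ := by
      have h3 : ∀ z' ∈ S1, S2.card * sz (Q z') ≤
          ∑ z ∈ S2, sz (push (fun q : A1 × C2 => (q.1, E2 z q.2)) (Q z')) +
            2 * ℓ2 * sz (Q z') := fun z' hz' =>
        less_push hL2 (Q z') (by have := hQ z' hz'; omega)
      have h4 := sum_le_sum h3
      rw [← mul_sum, sum_add_distrib, ← mul_sum, ← hNQ] at h4
      refine h4.trans (Nat.add_le_add_right ?_ _)
      rw [hNP, sum_comm, mul_sum]
      refine sum_le_sum fun z hz => ?_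
      rw [← smul_eq_mul, ← sum_const]
      refine sum_le_sum fun z' hz' => ?_
      rw [← hc z' hz' z hz]
      exact sz_push_le _ _
    -- a nonzero element of Q, hence C2 is nonempty
    obtain ⟨z0, hz0, hz0'⟩ : ∃ z' ∈ S1, sz (Q z') ≠ 0 := by
      by_contra hcon
      push Not at hcon
      exact h0 (hNQ.trans (sum_eq_zero hcon))
    obtain ⟨q0, hq0⟩ : (sup (Q z0)).Nonempty := by
      rw [← card_pos]; exact Nat.pos_of_ne_zero hz0'
    have hne : Nonempty C2 := ⟨q0.2⟩
    obtain ⟨dom, hdom⟩ := exists_dom' h2 S1 (fun z' => sup (Q z')) (by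
      refine le_trans ?_ hB
      rw [← smul_eq_mul, ← sum_const]
      refine sum_le_sum fun z' hz' => ?_
      have := hQ z' hz'
      change sz (Q z') ≤ B
      omega)
    have hbad := bad_le h1 P Q (fun z hz => by have := hP z hz; omega) hc dom hdom
    rw [← hNQ, ← hNP] at hbad
    -- a good pair
    have hgood : ∃ z ∈ S2, ∃ p ∈ sup (P z),
        4 * (S1.filter fun z' => Q z' (E1 z' p.1, dom z p.2) = 0).card ≤ S1.card := by
      by_contra hcon
      push Not at hcon
      have h3 : S1.card * NP ≤ ∑ z ∈ S2, ∑ p ∈ sup (P z),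
          4 * (S1.filter fun z' => Q z' (E1 z' p.1, dom z p.2) = 0).card := by
        rw [hNP, mul_sum]
        refine sum_le_sum fun z hz => ?_
        rw [show sz (P z) = (sup (P z)).card from rfl, mul_comm, ← smul_eq_mul, ← sum_const]
        exact sum_le_sum fun p hp => (hcon z hz p hp).le
      simp_rw [← mul_sum] at h3
      have h4 : S1.card * NP ≤ 4 * (2 * ℓ1 * NP + ℓ2 * NQ) :=
        h3.trans (Nat.mul_le_mul_left _ hbad)
      have hNQ0 : 0 < NQ := Nat.pos_of_ne_zero h0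
      have h5 : 14 * ℓ2 * NQ < S1.card * NP := by nlinarith
      nlinarith
    obtain ⟨z1, hz1, p, hp, hpb⟩ := hgood
    set u : C1 × C2 := (p.1, dom z1 p.2) with hu
    set P' : ι2 → C1 × A2 → ZMod 2 := fun z => P z + pt (u.1, E2 z u.2) with hP'
    set Q' : ι1 → A1 × C2 → ZMod 2 := fun z' => Q z' + pt (E1 z' u.1, u.2) with hQ'
    have hc' : ∀ z' ∈ S1, ∀ z ∈ S2, push (fun p : C1 × A2 => (E1 z' p.1, p.2)) (P' z) =
        push (fun q : A1 × C2 => (q.1, E2 z q.2)) (Q' z') := by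
      intro z' hz' z hz
      rw [hP', hQ']
      simp only
      rw [push_add, push_add, push_pt, push_pt, hc z' hz' z hz]
    have hsum : ∑ z' ∈ S1, sz (Q' z') + S1.card ≤ NQ +
        2 * (S1.filter fun z' => Q z' (E1 z' u.1, u.2) = 0).card := by
      have h3 : ∀ z' ∈ S1, sz (Q' z') + 1 ≤ sz (Q z') +
          2 * (if Q z' (E1 z' u.1, u.2) = 0 then 1 else 0) := by
        intro z' _
        split_ifs with h
        · have := sz_add_pt_le (Q z') (E1 z' u.1, u.2)
          simp only [hQ']; omega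
        · have := sz_add_pt_of_mem (Q z') (E1 z' u.1, u.2) h
          simp only [hQ']; omega
      have h4 := sum_le_sum h3
      rw [sum_add_distrib, sum_add_distrib, ← mul_sum, ← card_filter, sum_const, smul_eq_mul,
        mul_one, ← hNQ] at h4
      exact h4
    obtain ⟨U, hU1, hU2, hU3⟩ := ih P' Q'
      (fun z hz => by
        have h3 := sz_add_pt_le (P z) (u.1, E2 z u.2)
        have h4 := hP z hz
        simp only [hP']; omega)
      (fun z' hz' => by
        have h3 := sz_add_pt_le (Q z') (E1 z' u.1, u.2)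
        have h4 := hQ z' hz'
        simp only [hQ']; omega) hc' (by
        have h3 : 4 * (S1.filter fun z' => Q z' (E1 z' u.1, u.2) = 0).card ≤ S1.card := hpb
        nlinarith)
    refine ⟨U + pt u, (sz_add_pt_le _ _).trans (by omega), fun z hz => ?_, fun z' hz' => ?_⟩
    · rw [push_add, push_pt, hU2 z hz, hP']
      simp only
      rw [add_assoc, add_self_meas, add_zero]
    · rw [push_add, push_pt, hU3 z' hz', hQ']
      simp only
      rw [add_assoc, add_self_meas, add_zero]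

/-- **Gluing of two blocks.** -/
theorem glue_two (h1 : Less E1 S1 W0 ℓ1) (h2 : Less E2 S2 W0 ℓ2)
    (hn1 : 16 * ℓ1 < S1.card) (hn2 : 16 * ℓ2 < S2.card) (W : ℕ) (hW : S1.card * (3 * W) ≤ W0)
    (P : ι2 → C1 × A2 → ZMod 2) (Q : ι1 → A1 × C2 → ZMod 2)
    (hP : ∀ z ∈ S2, sz (P z) ≤ W) (hQ : ∀ z' ∈ S1, sz (Q z') ≤ W)
    (hcons : ∀ z' ∈ S1, ∀ z ∈ S2, push (fun p : C1 × A2 => (E1 z' p.1, p.2)) (P z) =
      push (fun q : A1 × C2 => (q.1, E2 z q.2)) (Q z')) :
    ∃ U : C1 × C2 → ZMod 2, sz U ≤ 2 * W ∧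
      (∀ z ∈ S2, push (fun u : C1 × C2 => (u.1, E2 z u.2)) U = P z) ∧
      ∀ z' ∈ S1, push (fun u : C1 × C2 => (E1 z' u.1, u.2)) U = Q z' := by
  refine glue_aux h1 h2 hn1 hn2 (3 * W) hW (2 * W) P Q (fun z hz => ?_) (fun z' hz' => ?_)
    hcons ?_
  · have := hP z hz; omega
  · have := hQ z' hz'; omega
  · have h3 : ∑ z' ∈ S1, sz (Q z') ≤ S1.card * W := by
      rw [← smul_eq_mul, ← sum_const]; exact sum_le_sum hQ
    nlinarith

end glue

end Vale.Agent.P318.H460
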