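import Vale.Agent.P318.H460.Params

/-!
# All parameters of the `(log n)^c` code, as functions of `ℓ = log₂ G`
-/

open Filter

namespace Vale.Agent.P318.H460

/-- The numbers needed for `SpecCODE4`.  `A`, `B` come from the recursion, `hc` is slack. -/
structure Num4 (A B hc C ℓ : ℕ) where
  /-- log of the set sizes -/
  w : ℕ
  /-- maximal half log of the number of seeds -/
  J : ℕ
  /-- `log` of `3 a` -/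
  α : ℕ
  /-- output dimension of the condensers -/
  a : ℕ
  /-- dimension of the final views -/
  D : ℕ
  /-- half log of the number of seeds of the outer condensers -/
  j : ℕ
  /-- size of the test measures -/
  W : ℕ
  hα1 : 6 * α + 18 ≤ J
  hα2 : (2 * ℓ + 30) + 3 * α + 10 ≤ J
  hα3 : 3 * a ≤ 2 ^ α
  hw : 2 * w + 1 ≤ a
  ha2 : 2 ≤ a
  hJa : 2 * w + 2 * J ≤ a
  hD : 4 * a + 1 ≤ D
  hj : 1 ≤ j
  haa : 2 * (2 * w + 2 * j) ≤ a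
  hloss : 40 * ((2 * w + 1) * ((2 ^ (2 * ℓ + 30) + 1) * 2 ^ j * (w + 1))) ≤ 2 ^ (2 * j)
  hpc : (2 ^ (2 * ℓ + 30) + 1) * 2 ^ (6 * ℓ + 80) ≤ 2 ^ (2 * j)
  hW : 20 * ((2 ^ (A * (2 * ℓ + 30) + B * (α + 1) ^ 2) *
    (1 + (2 ^ (2 * j) + 2 ^ (2 * j) * 2 ^ (2 * j))) + 1) * 2 ^ (2 * ℓ + 20)) ≤ W
  hsize : 2 ^ (2 * J + hc) * W ≤ 2 ^ w
  h2W : 2 * W ≤ 2 ^ w
  hk : 2 ^ (4 * ℓ + 70) ≤ 2 ^ w
  hs1 : 6 * ℓ + 100 ≤ D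
  hs2 : D ≤ C * ℓ
  hdim : (2 ^ (A * (2 * ℓ + 30) + B * (α + 1) ^ 2) *
    (1 + (2 ^ (2 * j) + 2 ^ (2 * j) * 2 ^ (2 * j))) + 1 +
    (2 ^ (2 * j) + 2 ^ (2 * j) * 2 ^ (2 * j))) * 2 ^ D ≤ 2 ^ (C * ℓ)

lemma clog_small (c B : ℕ) (hc : 1 ≤ c) :
    ∀ᶠ ℓ : ℕ in atTop, B * (Nat.clog 2 (c * ℓ) + 1) ^ 2 ≤ ℓ := by
  obtain ⟨α0, hα0⟩ := eventually_atTop.1 (poly_le_two_pow (8 * c * B) 2)
  filter_upwards [eventually_ge_atTop (2 ^ (α0 + 2)), eventually_ge_atTop 4] with ℓ hℓ h4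
  obtain ⟨α, hα⟩ : ∃ α, α = Nat.clog 2 (c * ℓ) := ⟨_, rfl⟩
  rw [← hα]
  have hcl : ℓ ≤ c * ℓ := Nat.le_mul_of_pos_left _ hc
  have h1 : 1 < c * ℓ := by omega
  have h2 : 2 ^ (α - 1) < c * ℓ := by
    have h := Nat.pow_pred_clog_lt_self (b := 2) (by norm_num) h1
    rw [hα]; exact h
  have h3 : α0 + 2 ≤ α := by
    have h5 : 2 ^ (α0 + 2) ≤ 2 ^ α := by
      rw [hα]; exact (hℓ.trans hcl).trans (Nat.le_pow_clog (by norm_num) _)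
    exact (Nat.pow_le_pow_iff_right (by norm_num)).1 h5
  by_contra hcon
  push Not at hcon
  have h4' : 8 * c * B * (α + 1) ^ 2 ≤ 2 ^ (α + 1) := hα0 (α + 1) (by omega)
  have h5 : 2 ^ (α + 1) = 4 * 2 ^ (α - 1) := by
    have : α + 1 = (α - 1) + 2 := by omega
    rw [this, pow_add]; ring
  have h6 : c * ℓ ≤ c * (B * (α + 1) ^ 2) := Nat.mul_le_mul_left _ hcon.le
  have h7 : 8 * c * B * (α + 1) ^ 2 = 8 * (c * (B * (α + 1) ^ 2)) := by ring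
  omega

theorem numbers4 (A B hc : ℕ) : ∃ C ℓ0 : ℕ, ∀ ℓ ≥ ℓ0, Nonempty (Num4 A B hc C ℓ) := by
  refine ⟨40 * A + 2000, ?_⟩
  rw [← eventually_atTop]
  filter_upwards [eventually_ge_atTop (1000 + hc + 30 * A),
    clog_small (3 * (8 * A + 400)) (B + 100) (by omega),
    poly_le_two_pow (2 ^ 37 * (4 * A + 202) ^ 2) 2] with ℓ hℓ hcl hpoly
  obtain ⟨w, hw⟩ : ∃ w, w = (2 * A + 60) * ℓ := ⟨_, rfl⟩
  obtain ⟨a, ha⟩ : ∃ a, a = (8 * A + 400) * ℓ := ⟨_, rfl⟩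
  obtain ⟨α, hα⟩ : ∃ α, α = Nat.clog 2 (3 * (8 * A + 400) * ℓ) := ⟨_, rfl⟩
  rw [← hα] at hcl
  have hw' : w = 2 * (A * ℓ) + 60 * ℓ := by rw [hw]; ring
  have ha' : a = 8 * (A * ℓ) + 400 * ℓ := by rw [ha]; ring
  have h100 : 100 * (α + 1) ^ 2 ≤ ℓ := le_trans (Nat.mul_le_mul_right _ (by omega)) hcl
  have hBα : B * (α + 1) ^ 2 ≤ ℓ := le_trans (Nat.mul_le_mul_right _ (by omega)) hcl
  have hαℓ : 100 * (α + 1) ≤ ℓ := by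
    refine le_trans (Nat.mul_le_mul_left _ ?_) h100
    exact Nat.le_self_pow (by norm_num) _
  have hN : A * (2 * ℓ + 30) + B * (α + 1) ^ 2 ≤ 2 * (A * ℓ) + 2 * ℓ := by
    have h1 : A * (2 * ℓ + 30) = 2 * (A * ℓ) + 30 * A := by ring
    omega
  obtain ⟨r, hr⟩ : ∃ r, r = 2 ^ (2 * (4 * ℓ + 56)) + 2 ^ (2 * (4 * ℓ + 56)) *
    2 ^ (2 * (4 * ℓ + 56)) := ⟨_, rfl⟩
  have hR : 1 + r ≤ 2 ^ (17 * ℓ) := by
    have h1 : 2 ^ (2 * (4 * ℓ + 56)) * 2 ^ (2 * (4 * ℓ + 56)) = 2 ^ (16 * ℓ + 224) := by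
      rw [← pow_add]
      have : 2 * (4 * ℓ + 56) + 2 * (4 * ℓ + 56) = 16 * ℓ + 224 := by ring
      rw [this]
    have h2 : 2 ^ (2 * (4 * ℓ + 56)) ≤ 2 ^ (16 * ℓ + 224) :=
      Nat.pow_le_pow_right (by norm_num) (by omega)
    have h3 : 1 ≤ 2 ^ (16 * ℓ + 224) := Nat.one_le_two_pow
    have h4 : 2 ^ (16 * ℓ + 226) = 4 * 2 ^ (16 * ℓ + 224) := by
      rw [show 16 * ℓ + 226 = (16 * ℓ + 224) + 2 by ring, pow_add]; ring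
    have h5 : 2 ^ (16 * ℓ + 226) ≤ 2 ^ (17 * ℓ) := Nat.pow_le_pow_right (by norm_num) (by omega)
    omega
  obtain ⟨N, hNdef⟩ : ∃ N, N = 2 ^ (A * (2 * ℓ + 30) + B * (α + 1) ^ 2) := ⟨_, rfl⟩
  have hT : N * (1 + r) + 1 ≤ 2 ^ (2 * (A * ℓ) + 20 * ℓ) := by
    have h1 : N * (1 + r) ≤ 2 ^ (2 * (A * ℓ) + 19 * ℓ) := by
      calc _ ≤ 2 ^ (2 * (A * ℓ) + 2 * ℓ) * 2 ^ (17 * ℓ) :=
            Nat.mul_le_mul (hNdef ▸ Nat.pow_le_pow_right (by norm_num) hN) hR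
        _ = 2 ^ (2 * (A * ℓ) + 19 * ℓ) := by
            rw [← pow_add, show 2 * (A * ℓ) + 2 * ℓ + 17 * ℓ = 2 * (A * ℓ) + 19 * ℓ by ring]
    have h2 : 1 ≤ 2 ^ (2 * (A * ℓ) + 19 * ℓ) := Nat.one_le_two_pow
    have h3 : 2 ^ (2 * (A * ℓ) + 19 * ℓ + 1) = 2 ^ (2 * (A * ℓ) + 19 * ℓ) * 2 := pow_succ _ _
    have h4 : 2 ^ (2 * (A * ℓ) + 19 * ℓ + 1) ≤ 2 ^ (2 * (A * ℓ) + 20 * ℓ) :=
      Nat.pow_le_pow_right (by norm_num) (by omega)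
    omega
  have hWle : 20 * ((N * (1 + r) + 1) * 2 ^ (2 * ℓ + 20)) ≤
      2 ^ (2 * (A * ℓ) + 22 * ℓ + 25) := by
    calc _ ≤ 2 ^ 5 * (2 ^ (2 * (A * ℓ) + 20 * ℓ) * 2 ^ (2 * ℓ + 20)) :=
          Nat.mul_le_mul (by norm_num) (Nat.mul_le_mul_right _ hT)
      _ = 2 ^ (2 * (A * ℓ) + 22 * ℓ + 25) := by
          rw [← pow_add, ← pow_add, show 5 + (2 * (A * ℓ) + 20 * ℓ + (2 * ℓ + 20)) =
            2 * (A * ℓ) + 22 * ℓ + 25 by ring]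
  refine ⟨⟨w, 3 * ℓ, α, a, 4 * a + 1, 4 * ℓ + 56, _, ?_, ?_, ?_, ?_, ?_, ?_, le_rfl, ?_, ?_,
    ?_, ?_, le_rfl, ?_, ?_, ?_, ?_, ?_, ?_⟩⟩
  · omega
  · omega
  · rw [hα, ha, ← mul_assoc]
    exact Nat.le_pow_clog (by norm_num) _
  · omega
  · omega
  · omega
  · omega
  · omega
  · have h1 : w + 1 ≤ (4 * A + 202) * ℓ := by
      have : (4 * A + 202) * ℓ = 4 * (A * ℓ) + 202 * ℓ := by ring
      omega
    have h2 : 2 * w + 1 ≤ (4 * A + 202) * ℓ := by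
      have : (4 * A + 202) * ℓ = 4 * (A * ℓ) + 202 * ℓ := by ring
      omega
    have h3 : 2 ^ (2 * ℓ + 30) + 1 ≤ 2 ^ (2 * ℓ + 31) := by
      have h4 : 2 ^ (2 * ℓ + 31) = 2 ^ (2 * ℓ + 30) * 2 := pow_succ _ _
      have h5 : 1 ≤ 2 ^ (2 * ℓ + 30) := Nat.one_le_two_pow
      omega
    calc 40 * ((2 * w + 1) * ((2 ^ (2 * ℓ + 30) + 1) * 2 ^ (4 * ℓ + 56) * (w + 1)))
        ≤ 2 ^ 6 * (((4 * A + 202) * ℓ) * (2 ^ (2 * ℓ + 31) * 2 ^ (4 * ℓ + 56) *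
          ((4 * A + 202) * ℓ))) :=
          Nat.mul_le_mul (by norm_num) (Nat.mul_le_mul h2
            (Nat.mul_le_mul (Nat.mul_le_mul_right _ h3) h1))
      _ = 2 ^ (2 * ℓ) * 2 ^ (4 * ℓ + 56) * (2 ^ 37 * (4 * A + 202) ^ 2 * ℓ ^ 2) := by
          rw [pow_add 2 (2 * ℓ) 31]; ring
      _ ≤ 2 ^ (2 * ℓ) * 2 ^ (4 * ℓ + 56) * 2 ^ ℓ := Nat.mul_le_mul_left _ hpoly
      _ = 2 ^ (7 * ℓ + 56) := by
          rw [← pow_add, ← pow_add, show 2 * ℓ + (4 * ℓ + 56) + ℓ = 7 * ℓ + 56 by ring]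
      _ ≤ 2 ^ (2 * (4 * ℓ + 56)) := Nat.pow_le_pow_right (by norm_num) (by omega)
  · have h3 : 2 ^ (2 * ℓ + 30) + 1 ≤ 2 ^ (2 * ℓ + 31) := by
      have h4 : 2 ^ (2 * ℓ + 31) = 2 ^ (2 * ℓ + 30) * 2 := pow_succ _ _
      have h5 : 1 ≤ 2 ^ (2 * ℓ + 30) := Nat.one_le_two_pow
      omega
    calc (2 ^ (2 * ℓ + 30) + 1) * 2 ^ (6 * ℓ + 80) ≤ 2 ^ (2 * ℓ + 31) * 2 ^ (6 * ℓ + 80) :=
          Nat.mul_le_mul_right _ h3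
      _ = 2 ^ (8 * ℓ + 111) := by
          rw [← pow_add, show 2 * ℓ + 31 + (6 * ℓ + 80) = 8 * ℓ + 111 by ring]
      _ ≤ 2 ^ (2 * (4 * ℓ + 56)) := Nat.pow_le_pow_right (by norm_num) (by omega)
  · rw [← hr, ← hNdef]
    calc _ ≤ 2 ^ (2 * (3 * ℓ) + hc) * 2 ^ (2 * (A * ℓ) + 22 * ℓ + 25) :=
          Nat.mul_le_mul_left _ hWle
      _ = 2 ^ ((2 * (3 * ℓ) + hc) + (2 * (A * ℓ) + 22 * ℓ + 25)) := (pow_add _ _ _).symm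
      _ ≤ 2 ^ w := Nat.pow_le_pow_right (by norm_num) (by omega)
  · rw [← hr, ← hNdef]
    calc _ ≤ 2 * 2 ^ (2 * (A * ℓ) + 22 * ℓ + 25) := Nat.mul_le_mul_left _ hWle
      _ = 2 ^ ((2 * (A * ℓ) + 22 * ℓ + 25) + 1) := by
          rw [pow_succ 2 (2 * (A * ℓ) + 22 * ℓ + 25), mul_comm]
      _ ≤ 2 ^ w := Nat.pow_le_pow_right (by norm_num) (by omega)
  · exact Nat.pow_le_pow_right (by norm_num) (by omega)
  · omega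
  · have : (40 * A + 2000) * ℓ = 40 * (A * ℓ) + 2000 * ℓ := by ring
    omega
  · rw [← hr, ← hNdef]
    have h1 : r ≤ 2 ^ (2 * (A * ℓ) + 20 * ℓ) := by
      have h5 : 2 ^ (17 * ℓ) ≤ 2 ^ (2 * (A * ℓ) + 20 * ℓ) :=
        Nat.pow_le_pow_right (by norm_num) (by omega)
      omega
    calc _ ≤ (2 ^ (2 * (A * ℓ) + 20 * ℓ) + 2 ^ (2 * (A * ℓ) + 20 * ℓ)) * 2 ^ (4 * a + 1) :=
          Nat.mul_le_mul_right _ (Nat.add_le_add hT h1)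
      _ = 2 ^ ((2 * (A * ℓ) + 20 * ℓ) + 1 + (4 * a + 1)) := by
          rw [← mul_two, pow_add _ _ (4 * a + 1), pow_succ 2 (2 * (A * ℓ) + 20 * ℓ)]
      _ ≤ 2 ^ ((40 * A + 2000) * ℓ) := by
          refine Nat.pow_le_pow_right (by norm_num) ?_
          have : (40 * A + 2000) * ℓ = 40 * (A * ℓ) + 2000 * ℓ := by ring
          omega

end Vale.Agent.P318.H460
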