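import Vale.Agent.P318.H460.Params

/-!
# All parameters of the code (section 16), as functions of `ℓ = log₂ G`
-/

open Filter

namespace Vale.Agent.P318.H460

/-- The numbers needed for `SpecCODE`. -/
structure Num (C ℓ : ℕ) where
  e : ℕ
  m' : ℕ
  n : ℕ
  Lv : ℕ
  eB : ℕ
  eD : ℕ
  s1 : ℕ
  l : ℕ
  N0 : ℕ
  he : 1 ≤ e
  hm' : 1 ≤ m'
  hn : 2 ≤ n
  hLv : 1 ≤ Lv
  hmen : m' ^ 2 * e ≤ n
  heBD : eB + eD = e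
  hN0 : 0 < N0
  hD : 300 * (n + 1) * ((2 ^ Lv - 1) + 1) * ((2 * m' + 1) * (n * m')) < 2 ^ eD
  hnD : n ≤ 2 ^ eD
  hN0' : (m' * e) ^ (2 ^ Lv) * (2 ^ eB * 2 ^ eD) < 2 * ((2 ^ Lv - 1) * n) * N0
  hs8 : 8 ≤ 2 * s1
  hs : 1024 * ((((2 ^ Lv - 1) + 1) ^ 2 * (N0 * ((2 ^ Lv - 1) + 1) + 1) *
    (2 ^ eD) ^ (2 ^ Lv - 1)) ^ 2 * 2 ^ (2 * ℓ + 20)) ≤ 2 ^ (2 * s1)
  hmv : 1024 * ((((2 ^ Lv - 1) + 1) ^ 2 * (N0 * ((2 ^ Lv - 1) + 1) + 1) *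
    (2 ^ eD) ^ (2 ^ Lv - 1)) ^ 2 * 2 ^ (2 * ℓ + 20)) ≤ 2 ^ m'
  hk : 2 ^ s1 ≤ 2 ^ m'
  hl : l ≤ s1
  hp : (4 * (((2 ^ Lv - 1 : ℕ) : ℝ) * n)) / ((2 ^ eB : ℕ) * (2 ^ eD : ℕ)) + (1 / 2 : ℝ) ^ l ≤
    (1 / 2 : ℝ) ^ (6 * ℓ + 80)
  hκ1 : 2 ^ (2 * ℓ + 30) ≤ (m' * e) ^ (2 ^ Lv)
  hκ2 : (m' * e) ^ (2 ^ Lv) ≤ 2 ^ (4 * ℓ + 60)
  hs1 : 6 * ℓ + 100 ≤ 2 * s1
  hs2 : 2 * s1 ≤ C * ℓ
  hk1 : 2 ^ (4 * ℓ + 70) ≤ 2 ^ s1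
  hk2 : 4 * (m' * e) ^ (2 ^ Lv) ≤ 2 ^ s1
  hdim : (((2 ^ Lv - 1) + 1) ^ 2 * (N0 * ((2 ^ Lv - 1) + 1) + 1) *
    (2 ^ eD) ^ (2 ^ Lv - 1)) ^ 2 * (2 * (m' * e) ^ (2 * Lv + 2) + 1) ^ (2 * s1) ≤
      2 ^ (C * ℓ * (Nat.log 2 ℓ) ^ 2)

lemma pe {a b c : ℕ} (h : a = b) : c ^ a = c ^ b := by rw [h]

lemma eventually_n1 : ∀ᶠ ℓ : ℕ in atTop, (200 * ℓ * (7 * ℓ + 200)) ^ 20 ≤ 2 ^ ℓ := by
  obtain ⟨C, hC⟩ : ∃ C, C = 3000 ^ 20 := ⟨_, rfl⟩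
  filter_upwards [eventually_ge_atTop 100000, poly_le_two_pow C 40] with ℓ hℓ hpoly
  refine le_trans ?_ hpoly
  have h : 200 * ℓ * (7 * ℓ + 200) ≤ 3000 * ℓ ^ 2 := by nlinarith
  refine (Nat.pow_le_pow_left h 20).trans (le_of_eq ?_)
  rw [mul_pow, ← pow_mul, hC]

/-- choice of the depth of the tree -/
lemma exists_depth (n1 B : ℕ) (h2 : 2 ≤ n1) (h2B : n1 ^ 2 ≤ 2 ^ B) :
    ∃ Lv, 1 ≤ Lv ∧ n1 ^ (2 ^ Lv) ≤ 2 ^ B ∧ 2 ^ B < (n1 ^ (2 ^ Lv)) ^ 2 ∧ 2 ^ Lv ≤ B := by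
  obtain ⟨M0, hM0⟩ : ∃ M0, M0 = Nat.log n1 (2 ^ B) := ⟨_, rfl⟩
  have hM02 : 2 ≤ M0 := by rw [hM0]; exact Nat.le_log_of_pow_le (by omega) h2B
  obtain ⟨Lv, hLvdef⟩ : ∃ Lv, Lv = Nat.log 2 M0 := ⟨_, rfl⟩
  have hLv1 : 1 ≤ Lv := by
    rw [hLvdef]; exact Nat.le_log_of_pow_le (by norm_num) (by simpa using hM02)
  have hmM0 : 2 ^ Lv ≤ M0 := by rw [hLvdef]; exact Nat.pow_log_le_self 2 (by omega)
  have hM0m : M0 + 1 ≤ 2 ^ (Lv + 1) := by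
    rw [hLvdef]; exact Nat.lt_pow_succ_log_self (by norm_num) _
  have hκB : n1 ^ (2 ^ Lv) ≤ 2 ^ B := by
    refine (Nat.pow_le_pow_right (by omega) hmM0).trans ?_
    rw [hM0]; exact Nat.pow_log_le_self _ (by positivity)
  refine ⟨Lv, hLv1, hκB, ?_, ?_⟩
  · have h5 : 2 ^ B < n1 ^ (M0 + 1) := by
      rw [hM0]; exact Nat.lt_pow_succ_log_self (by omega) _
    refine h5.trans_le ((Nat.pow_le_pow_right (by omega) hM0m).trans (le_of_eq ?_))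
    rw [← pow_mul, pow_succ]
  · have : 2 ^ (2 ^ Lv) ≤ 2 ^ B := (Nat.pow_le_pow_left h2 _).trans hκB
    exact (Nat.pow_le_pow_iff_right (by norm_num)).1 this

/-- choice of the block size -/
lemma exists_block (n1 : ℕ) (h2n : 2 ≤ n1) : ∃ eD, n1 ^ 8 ≤ 2 ^ eD ∧ 2 ^ eD ≤ n1 ^ 9 := by
  refine ⟨Nat.clog 2 (n1 ^ 8), Nat.le_pow_clog (by norm_num) _, ?_⟩
  have hn4 : 1 < n1 ^ 8 := Nat.one_lt_pow (by norm_num) (by omega)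
  have hD2 : 2 ^ Nat.clog 2 (n1 ^ 8) ≤ 2 * n1 ^ 8 := by
    have h := Nat.pow_pred_clog_lt_self (b := 2) (by norm_num) hn4
    have hpos : 0 < Nat.clog 2 (n1 ^ 8) := Nat.clog_pos (by norm_num) (by omega)
    have : 2 ^ Nat.clog 2 (n1 ^ 8) = 2 * 2 ^ (Nat.clog 2 (n1 ^ 8)).pred := by
      conv_lhs => rw [← Nat.succ_pred_eq_of_pos hpos]
      rw [pow_succ]; ring
    omega
  refine hD2.trans ?_
  rw [pow_succ n1 8, mul_comm (n1 ^ 8)]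
  exact Nat.mul_le_mul_right _ h2n

/-- the number of pair views -/
lemma Mv_le (ℓ m κ n1 eD N0 : ℕ) (hκ : κ = n1 ^ m) (hκB : κ ≤ 2 ^ (4 * ℓ + 60))
    (hD3 : 2 ^ eD ≤ n1 ^ 9) (hN0 : N0 = κ * 2 ^ (7 * ℓ + 200)) (hmℓ : m ≤ 2 ^ ℓ) :
    (m ^ 2 * (N0 * m + 1) * (2 ^ eD) ^ (m - 1)) ^ 2 ≤ 2 ^ (100 * ℓ + 1602) := by
  have hDpow : (2 ^ eD) ^ (m - 1) ≤ 2 ^ (36 * ℓ + 540) := by
    calc (2 ^ eD) ^ (m - 1) ≤ (2 ^ eD) ^ m :=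
          Nat.pow_le_pow_right (by positivity) (Nat.sub_le _ _)
      _ ≤ (n1 ^ 9) ^ m := Nat.pow_le_pow_left hD3 _
      _ = κ ^ 9 := by rw [hκ, ← pow_mul, ← pow_mul]; exact pe (by ring)
      _ ≤ (2 ^ (4 * ℓ + 60)) ^ 9 := Nat.pow_le_pow_left hκB _
      _ = 2 ^ (36 * ℓ + 540) := by rw [← pow_mul]; exact pe (by omega)
  have hN0up : N0 ≤ 2 ^ (11 * ℓ + 260) := by
    rw [hN0]
    calc κ * 2 ^ (7 * ℓ + 200) ≤ 2 ^ (4 * ℓ + 60) * 2 ^ (7 * ℓ + 200) :=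
          Nat.mul_le_mul_right _ hκB
      _ = 2 ^ (11 * ℓ + 260) := by rw [← pow_add]; exact pe (by omega)
  have h1 : m ^ 2 ≤ 2 ^ (2 * ℓ) := by
    calc m ^ 2 ≤ (2 ^ ℓ) ^ 2 := Nat.pow_le_pow_left hmℓ _
      _ = 2 ^ (2 * ℓ) := by rw [← pow_mul]; exact pe (by ring)
  have h2 : N0 * m + 1 ≤ 2 ^ (12 * ℓ + 261) := by
    have h3 : N0 * m ≤ 2 ^ (12 * ℓ + 260) := by
      calc N0 * m ≤ 2 ^ (11 * ℓ + 260) * 2 ^ ℓ := Nat.mul_le_mul hN0up hmℓ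
        _ = 2 ^ (12 * ℓ + 260) := by rw [← pow_add]; exact pe (by omega)
    have h4 : 1 ≤ 2 ^ (12 * ℓ + 260) := Nat.one_le_two_pow
    have h5 : 2 ^ (12 * ℓ + 261) = 2 ^ (12 * ℓ + 260) * 2 := pow_succ _ _
    omega
  calc (m ^ 2 * (N0 * m + 1) * (2 ^ eD) ^ (m - 1)) ^ 2
      ≤ (2 ^ (2 * ℓ) * 2 ^ (12 * ℓ + 261) * 2 ^ (36 * ℓ + 540)) ^ 2 :=
        Nat.pow_le_pow_left (Nat.mul_le_mul (Nat.mul_le_mul h1 h2) hDpow) _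
    _ = 2 ^ (100 * ℓ + 1602) := by rw [← pow_add, ← pow_add, ← pow_mul]; exact pe (by omega)

/-- the loss condition -/
lemma loss_lt (ℓ m n n1 eD : ℕ) (hn1lo : 100000 * ℓ ≤ n1) (hℓ : 1 ≤ ℓ) (hnn1 : n ≤ n1 ^ 2)
    (hmn1 : m ≤ n1) (hD1 : n1 ^ 8 ≤ 2 ^ eD) :
    300 * (n + 1) * m * ((2 * (200 * ℓ) + 1) * (n * (200 * ℓ))) < 2 ^ eD := by
  have hpos : 1 ≤ n1 := by omega
  have h1 : n + 1 ≤ 2 * n1 ^ 2 := by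
    have : 1 ≤ n1 ^ 2 := Nat.one_le_pow _ _ hpos
    omega
  have h2 : 2 * (200 * ℓ) + 1 ≤ 3 * n1 := by omega
  have h3 : n * (200 * ℓ) ≤ n1 ^ 2 * n1 := Nat.mul_le_mul hnn1 (by omega)
  calc 300 * (n + 1) * m * ((2 * (200 * ℓ) + 1) * (n * (200 * ℓ)))
      ≤ 300 * (2 * n1 ^ 2) * n1 * ((3 * n1) * (n1 ^ 2 * n1)) :=
        Nat.mul_le_mul (Nat.mul_le_mul (Nat.mul_le_mul_left _ h1) hmn1) (Nat.mul_le_mul h2 h3)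
    _ = 1800 * n1 ^ 7 := by ring
    _ < n1 * n1 ^ 7 := Nat.mul_lt_mul_of_pos_right (by omega) (by positivity)
    _ = n1 ^ 8 := by ring
    _ ≤ 2 ^ eD := hD1

/-- the collision probability -/
lemma coll_le (ℓ eD a : ℕ) (heD : eD ≤ ℓ) (h2 : a ≤ 2 ^ ℓ) :
    (4 * (a : ℝ)) / ((2 ^ (7 * ℓ + 200 - eD) : ℕ) * (2 ^ eD : ℕ)) +
      (1 / 2 : ℝ) ^ (6 * ℓ + 81) ≤ (1 / 2 : ℝ) ^ (6 * ℓ + 80) := by
  have h1 : ((2 ^ (7 * ℓ + 200 - eD) : ℕ) : ℝ) * ((2 ^ eD : ℕ) : ℝ) = 2 ^ (7 * ℓ + 200) := by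
    push_cast
    rw [← pow_add, show 7 * ℓ + 200 - eD + eD = 7 * ℓ + 200 by omega]
  rw [h1]
  have h3 : (a : ℝ) ≤ 2 ^ ℓ := by exact_mod_cast h2
  have h4 : (4 * (a : ℝ)) / 2 ^ (7 * ℓ + 200) ≤ (1 / 2 : ℝ) ^ (6 * ℓ + 81) := by
    rw [div_le_iff₀ (by positivity)]
    have h5 : (1 / 2 : ℝ) ^ (6 * ℓ + 81) * 2 ^ (7 * ℓ + 200) = 2 ^ (ℓ + 119) := by
      have : (2 : ℝ) ^ (7 * ℓ + 200) = 2 ^ (6 * ℓ + 81) * 2 ^ (ℓ + 119) := by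
        rw [← pow_add, show 6 * ℓ + 81 + (ℓ + 119) = 7 * ℓ + 200 by omega]
      rw [this, ← mul_assoc, ← mul_pow]; norm_num
    rw [h5]
    have h6 : (2 : ℝ) ^ (ℓ + 119) = 2 ^ ℓ * 2 ^ 119 := pow_add _ _ _
    rw [h6]
    have h7 : (4 : ℝ) ≤ 2 ^ 119 := by norm_num
    have h8 : (0 : ℝ) < 2 ^ ℓ := by positivity
    nlinarith
  have h9 : (1 / 2 : ℝ) ^ (6 * ℓ + 80) = 2 * (1 / 2 : ℝ) ^ (6 * ℓ + 81) := by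
    rw [show 6 * ℓ + 81 = (6 * ℓ + 80) + 1 by ring, pow_succ]; ring
  rw [h9]; linarith

/-- the dimension bound -/
lemma dim_le (ℓ n1 Lv Mv : ℕ) (hℓ : 100000 ≤ ℓ) (hn1lo : 100000 * ℓ ≤ n1)
    (hn1up3 : n1 ≤ ℓ ^ 3) (hLvB : 2 ^ Lv ≤ 4 * ℓ + 60) (hMvup : Mv ≤ 2 ^ (100 * ℓ + 1602)) :
    Mv * (2 * n1 ^ (2 * Lv + 2) + 1) ^ (200 * ℓ) ≤ 2 ^ (14000 * ℓ * (Nat.log 2 ℓ) ^ 2) := by
  have hpos : 1 ≤ n1 := by omega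
  obtain ⟨L, hL⟩ : ∃ L, L = Nat.log 2 ℓ := ⟨_, rfl⟩
  rw [← hL]
  have hL1 : 1 ≤ L := by rw [hL]; exact Nat.le_log_of_pow_le (by norm_num) (by omega)
  have hℓL : ℓ ≤ 2 ^ (2 * L) := by
    have h1 : ℓ < 2 ^ (L + 1) := by rw [hL]; exact Nat.lt_pow_succ_log_self (by norm_num) _
    exact h1.le.trans (Nat.pow_le_pow_right (by norm_num) (by omega))
  have hn1L : n1 ≤ 2 ^ (6 * L) := by
    calc n1 ≤ ℓ ^ 3 := hn1up3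
      _ ≤ (2 ^ (2 * L)) ^ 3 := Nat.pow_le_pow_left hℓL _
      _ = 2 ^ (6 * L) := by rw [← pow_mul]; exact pe (by ring)
  have hLvL : Lv ≤ 4 * L := by
    have h1 : 2 ^ Lv ≤ 2 ^ (4 * L) := by
      calc 2 ^ Lv ≤ 4 * ℓ + 60 := hLvB
        _ ≤ ℓ ^ 2 := by nlinarith
        _ ≤ (2 ^ (2 * L)) ^ 2 := Nat.pow_le_pow_left hℓL _
        _ = 2 ^ (4 * L) := by rw [← pow_mul]; exact pe (by ring)
    exact (Nat.pow_le_pow_iff_right (by norm_num)).1 h1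
  have hdT : 2 * n1 ^ (2 * Lv + 2) + 1 ≤ n1 ^ (11 * L) := by
    have h1 : 1 ≤ n1 ^ (2 * Lv + 2) := Nat.one_le_pow _ _ hpos
    calc 2 * n1 ^ (2 * Lv + 2) + 1 ≤ 3 * n1 ^ (2 * Lv + 2) := by omega
      _ ≤ n1 * n1 ^ (2 * Lv + 2) := Nat.mul_le_mul_right _ (by omega)
      _ = n1 ^ (2 * Lv + 3) := by ring
      _ ≤ n1 ^ (11 * L) := Nat.pow_le_pow_right hpos (by omega)
  calc Mv * (2 * n1 ^ (2 * Lv + 2) + 1) ^ (200 * ℓ)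
      ≤ 2 ^ (100 * ℓ + 1602) * ((2 ^ (6 * L)) ^ (11 * L)) ^ (200 * ℓ) :=
        Nat.mul_le_mul hMvup (Nat.pow_le_pow_left (hdT.trans (Nat.pow_le_pow_left hn1L _)) _)
    _ = 2 ^ ((100 * ℓ + 1602) + 6 * L * (11 * L) * (200 * ℓ)) := by
        rw [← pow_mul, ← pow_mul, ← pow_add]; exact pe (by ring)
    _ ≤ 2 ^ (14000 * ℓ * L ^ 2) := by
        refine Nat.pow_le_pow_right (by norm_num) ?_
        have h1 : 1 ≤ L ^ 2 := Nat.one_le_pow _ _ hL1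
        have h2 : ℓ ≤ ℓ * L ^ 2 := Nat.le_mul_of_pos_right _ (by omega)
        have h3 : 6 * L * (11 * L) * (200 * ℓ) = 13200 * (ℓ * L ^ 2) := by ring
        have h4 : 14000 * ℓ * L ^ 2 = 14000 * (ℓ * L ^ 2) := by ring
        rw [h3, h4]
        omega

theorem numbers : ∃ C ℓ0 : ℕ, ∀ ℓ ≥ ℓ0, Nonempty (Num C ℓ) := by
  refine ⟨14000, ?_⟩
  rw [← eventually_atTop]
  filter_upwards [eventually_ge_atTop 100000, eventually_n1] with ℓ hℓ hn120'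
  obtain ⟨n1, hn1eq⟩ : ∃ n1, 200 * ℓ * (7 * ℓ + 200) = n1 := ⟨_, rfl⟩
  rw [hn1eq] at hn120'
  have hn1lo : 100000 * ℓ ≤ n1 := by rw [← hn1eq]; nlinarith
  have hn1up3 : n1 ≤ ℓ ^ 3 := by
    have h1 : n1 ≤ 3000 * ℓ ^ 2 := by rw [← hn1eq]; nlinarith
    have : 3000 * ℓ ^ 2 ≤ ℓ * ℓ ^ 2 := Nat.mul_le_mul_right _ (by omega)
    calc _ ≤ _ := h1.trans this
      _ = ℓ ^ 3 := by ring
  have hpos : 1 ≤ n1 := by omega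
  have hpw : ∀ i ≤ 20, n1 ^ i ≤ 2 ^ ℓ := fun i hi =>
    (Nat.pow_le_pow_right hpos hi).trans hn120'
  have h2n : 2 ≤ n1 := by omega
  have h2B : n1 ^ 2 ≤ 2 ^ (4 * ℓ + 60) := (hpw 2 (by norm_num)).trans
    (Nat.pow_le_pow_right (by norm_num) (by omega))
  obtain ⟨Lv, hLv1, hκB, hBκ, hmB⟩ := exists_depth n1 (4 * ℓ + 60) h2n h2B
  obtain ⟨eD, hD1, hD3⟩ := exists_block n1 h2n
  obtain ⟨m, hm⟩ : ∃ m, 2 ^ Lv = m := ⟨_, rfl⟩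
  rw [hm] at hκB hBκ
  obtain ⟨κ, hκ⟩ : ∃ κ, n1 ^ m = κ := ⟨_, rfl⟩
  rw [hκ] at hκB hBκ
  have hκlo : 2 ^ (2 * ℓ + 30) < κ := by
    have : (2 ^ (2 * ℓ + 30)) ^ 2 < κ ^ 2 := by
      rw [← pow_mul, show (2 * ℓ + 30) * 2 = 4 * ℓ + 60 by omega]; exact hBκ
    exact lt_of_pow_lt_pow_left₀ 2 (Nat.zero_le _) this
  have hmB' : m ≤ 4 * ℓ + 60 := by rw [← hm]; exact hmB
  have hmn1 : m ≤ n1 := by omega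
  have hm2 : 2 ≤ m := by
    rw [← hm]
    calc 2 = 2 ^ 1 := rfl
      _ ≤ 2 ^ Lv := Nat.pow_le_pow_right (by norm_num) hLv1
  have heDℓ : eD ≤ ℓ := by
    have h1 : 2 ^ eD ≤ 2 ^ ℓ := hD3.trans (hpw 9 (by norm_num))
    exact (Nat.pow_le_pow_iff_right (by norm_num)).1 h1
  obtain ⟨N0, hN0⟩ : ∃ N0, N0 = κ * 2 ^ (7 * ℓ + 200) := ⟨_, rfl⟩
  have hκpos : 0 < κ := lt_of_le_of_lt (Nat.zero_le _) hκlo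
  have hN0pos : 0 < N0 := by rw [hN0]; exact Nat.mul_pos hκpos (Nat.two_pow_pos _)
  have hmℓ : m ≤ 2 ^ ℓ := hmn1.trans (by simpa using hpw 1 (by norm_num))
  have hmsub : m - 1 + 1 = m := by omega
  have hMvup := Mv_le ℓ m κ n1 eD N0 hκ.symm hκB hD3 hN0 hmℓ
  obtain ⟨Mv, hMv⟩ : ∃ Mv, (m ^ 2 * (N0 * m + 1) * (2 ^ eD) ^ (m - 1)) ^ 2 = Mv := ⟨_, rfl⟩
  rw [hMv] at hMvup
  have hMvs : 1024 * (Mv * 2 ^ (2 * ℓ + 20)) ≤ 2 ^ (200 * ℓ) := by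
    calc 1024 * (Mv * 2 ^ (2 * ℓ + 20)) ≤ 2 ^ 10 * (2 ^ (100 * ℓ + 1602) * 2 ^ (2 * ℓ + 20)) :=
          Nat.mul_le_mul (by norm_num) (Nat.mul_le_mul_right _ hMvup)
      _ = 2 ^ (10 + (100 * ℓ + 1602 + (2 * ℓ + 20))) := by rw [← pow_add, ← pow_add]
      _ ≤ 2 ^ (200 * ℓ) := Nat.pow_le_pow_right (by norm_num) (by omega)
  obtain ⟨n, hn⟩ : ∃ n, n = (200 * ℓ) ^ 2 * (7 * ℓ + 200) := ⟨_, rfl⟩
  have hnn1 : n ≤ n1 ^ 2 := by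
    rw [hn, ← hn1eq]
    calc (200 * ℓ) ^ 2 * (7 * ℓ + 200) ≤ (200 * ℓ) ^ 2 * (7 * ℓ + 200) ^ 2 :=
          Nat.mul_le_mul_left _ (Nat.le_self_pow (n := 2) (by norm_num) _)
      _ = (200 * ℓ * (7 * ℓ + 200)) ^ 2 := by ring
  have hn2 : 2 ≤ n := by
    rw [hn]
    have h1 : 1 ≤ (200 * ℓ) ^ 2 := Nat.one_le_pow _ _ (by omega)
    calc 2 ≤ 7 * ℓ + 200 := by omega
      _ = 1 * (7 * ℓ + 200) := (one_mul _).symm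
      _ ≤ _ := Nat.mul_le_mul_right _ h1
  have hloss := loss_lt ℓ m n n1 eD hn1lo (by omega) hnn1 hmn1 hD1
  have hnD : n ≤ 2 ^ eD := hnn1.trans ((Nat.pow_le_pow_right hpos (by norm_num)).trans hD1)
  have hcoll := coll_le ℓ eD ((m - 1) * n) heDℓ (by
    calc (m - 1) * n ≤ n1 * n1 ^ 2 := Nat.mul_le_mul ((Nat.sub_le _ _).trans hmn1) hnn1
      _ = n1 ^ 3 := by ring
      _ ≤ 2 ^ ℓ := hpw 3 (by norm_num))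
  have hdim := dim_le ℓ n1 Lv Mv hℓ hn1lo hn1up3 hmB hMvup
  have h200 : 2 * (100 * ℓ) = 200 * ℓ := by ring
  refine ⟨⟨7 * ℓ + 200, 200 * ℓ, n, Lv, 7 * ℓ + 200 - eD, eD, 100 * ℓ, 6 * ℓ + 81, N0,
    by omega, by omega, hn2, hLv1, hn.ge, by omega, hN0pos, ?_, hnD, ?_, by omega, ?_, ?_,
    Nat.pow_le_pow_right (by norm_num) (by omega), by omega, ?_, ?_, ?_, by omega, by omega,
    Nat.pow_le_pow_right (by norm_num) (by omega), ?_, ?_⟩⟩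
  · rw [hm, hmsub]; exact hloss
  · rw [hm, hn1eq, hκ, ← pow_add, show 7 * ℓ + 200 - eD + eD = 7 * ℓ + 200 by omega, ← hN0]
    have h1 : 1 ≤ (m - 1) * n := Nat.mul_pos (by omega) (by omega)
    calc N0 < 2 * N0 := by omega
      _ = 2 * 1 * N0 := by ring
      _ ≤ 2 * ((m - 1) * n) * N0 := Nat.mul_le_mul_right _ (Nat.mul_le_mul_left _ h1)
  · rw [hm, hmsub, hMv, h200]; exact hMvs
  · rw [hm, hmsub, hMv]; exact hMvs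
  · rw [hm]; push_cast at hcoll ⊢; exact hcoll
  · rw [hn1eq, hm, hκ]; exact hκlo.le
  · rw [hn1eq, hm, hκ]; exact hκB
  · rw [hn1eq, hm, hκ]
    calc 4 * κ ≤ 2 ^ 2 * 2 ^ (4 * ℓ + 60) := Nat.mul_le_mul (by norm_num) hκB
      _ = 2 ^ (4 * ℓ + 62) := by rw [← pow_add]; exact pe (by omega)
      _ ≤ 2 ^ (100 * ℓ) := Nat.pow_le_pow_right (by norm_num) (by omega)
  · rw [hn1eq, hm, hmsub, hMv, h200]; exact hdim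

end Vale.Agent.P318.H460
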