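import Mathlib

/-!
# Parameters for the lower bound on the Goemans–Linial gap

Everything is a function of one natural number `f`.
-/

open Filter

namespace Vale.Agent.P318.H460

/-- Polynomials are eventually below `2 ^ f`. -/
lemma poly_le_two_pow (C k : ℕ) : ∀ᶠ f : ℕ in atTop, C * f ^ k ≤ 2 ^ f := by
  have h := tendsto_pow_const_div_const_pow_of_one_lt k (r := (2 : ℝ)) (by norm_num)
  have h2 : ∀ᶠ f : ℕ in atTop, (f : ℝ) ^ k / 2 ^ f < 1 / ((C : ℝ) + 1) :=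
    h.eventually (gt_mem_nhds (by positivity))
  filter_upwards [h2] with f hf
  have hp : (0 : ℝ) < 2 ^ f := by positivity
  rw [div_lt_div_iff₀ hp (by positivity)] at hf
  have h3 : ((C * f ^ k : ℕ) : ℝ) ≤ ((2 ^ f : ℕ) : ℝ) := by
    push_cast
    have : (0 : ℝ) ≤ (f : ℝ) ^ k := by positivity
    nlinarith
  exact_mod_cast h3

/-- `log_2` of the field size. -/
def eF (f : ℕ) : ℕ := 25 * f
/-- field size -/
def qF (f : ℕ) : ℕ := 2 ^ eF f
/-- number of output symbols of the condenser -/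
def mP (f : ℕ) : ℕ := 2500 * f
/-- degree of the test -/
def sP (f : ℕ) : ℕ := 2500 * f
/-- dimension of one tensor slot = dimension of the output of the condenser -/
def n1 (f : ℕ) : ℕ := mP f * eF f
/-- degree of the field extension -/
def nP (f : ℕ) : ℕ := mP f ^ 2 * eF f
/-- `log_2` of the block size -/
def dB (f : ℕ) : ℕ := Nat.clog 2 (n1 f ^ 8)
/-- block size -/
def DB (f : ℕ) : ℕ := 2 ^ dB f
/-- depth of the tree -/
def Lv (f : ℕ) : ℕ := Nat.log 2 (Nat.log (n1 f) (2 ^ (100 * f)))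
/-- number of leaves -/
def mL (f : ℕ) : ℕ := 2 ^ Lv f
/-- dimension of the base space -/
def kap (f : ℕ) : ℕ := n1 f ^ mL f
/-- number of random grids -/
def N0 (f : ℕ) : ℕ := kap f * qF f

lemma n1_eq (f : ℕ) : n1 f = 62500 * f ^ 2 := by
  simp only [n1, mP, eF]; ring

lemma n1_sq (f : ℕ) : n1 f * n1 f = nP f * eF f := by
  simp only [n1, nP, mP, eF]; ring

lemma nP_eq (f : ℕ) : nP f = 156250000 * f ^ 3 := by
  simp only [nP, mP, eF]; ring

lemma n1_le_pow (f : ℕ) (hf : 62500 ≤ f) : n1 f ≤ f ^ 3 := by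
  rw [n1_eq]
  calc 62500 * f ^ 2 ≤ f * f ^ 2 := Nat.mul_le_mul_right _ hf
    _ = f ^ 3 := by ring

/-- every fixed power of `n1` is eventually below `2 ^ f`. -/
lemma n1_pow_le (C A : ℕ) : ∀ᶠ f : ℕ in atTop, C * n1 f ^ A ≤ 2 ^ f := by
  filter_upwards [poly_le_two_pow (C * 62500 ^ A) (2 * A)] with f hf
  rw [n1_eq, mul_pow, ← pow_mul, ← mul_assoc]
  exact hf

lemma n1_ge (C : ℕ) : ∀ᶠ f : ℕ in atTop, C ≤ n1 f := by
  filter_upwards [eventually_ge_atTop (C + 1)] with f hf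
  rw [n1_eq]
  have h1 : f ^ 1 ≤ f ^ 2 := Nat.pow_le_pow_right (by omega) (by norm_num)
  rw [pow_one] at h1
  omega

/-- The collected basic facts. -/
structure Basic (f : ℕ) : Prop where
  f_ge : 1000 ≤ f
  n1_ge : 1000 * f ≤ n1 f
  n1_le : n1 f ≤ 2 ^ f
  n1_pow : n1 f ^ 20 ≤ 2 ^ f
  nP_le : 1000 * nP f ≤ n1 f ^ 2
  kap_le : kap f ≤ 2 ^ (100 * f)
  lt_kap : 2 ^ (50 * f) < kap f
  mL_le : mL f ≤ 100 * f
  D_ge : n1 f ^ 8 ≤ DB f
  D_le : DB f ≤ n1 f ^ 9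
  D_le_q : dB f ≤ eF f
  D_pow : DB f ^ mL f ≤ 2 ^ (900 * f)
  loss : (2 * mP f + 1) * ((nP f - 1) * mP f) ≤ n1 f ^ 4

lemma basic_eventually : ∀ᶠ f : ℕ in atTop, Basic f := by
  filter_upwards [eventually_ge_atTop 1000, n1_pow_le 1 20, n1_ge 2] with f hf h10 h2
  rw [one_mul] at h10
  have hn1 : n1 f ≤ 2 ^ f := by
    calc n1 f = n1 f ^ 1 := (pow_one _).symm
      _ ≤ n1 f ^ 20 := Nat.pow_le_pow_right (by omega) (by norm_num)
      _ ≤ _ := h10
  set M0 := Nat.log (n1 f) (2 ^ (100 * f)) with hM0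
  have hpow : n1 f ≤ 2 ^ (100 * f) :=
    hn1.trans (Nat.pow_le_pow_right (by norm_num) (by omega))
  have hM0pos : M0 ≠ 0 := by
    have := Nat.log_pos (b := n1 f) (by omega) hpow
    omega
  have hLv : Lv f = Nat.log 2 M0 := rfl
  have h3 : mL f ≤ M0 := by
    rw [mL, hLv]; exact Nat.pow_log_le_self 2 hM0pos
  have h4 : n1 f ^ M0 ≤ 2 ^ (100 * f) := Nat.pow_log_le_self _ (by positivity)
  have hkap : kap f ≤ 2 ^ (100 * f) :=
    (Nat.pow_le_pow_right (by omega) h3).trans h4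
  have h5 : 2 ^ (100 * f) < n1 f ^ (M0 + 1) := Nat.lt_pow_succ_log_self (by omega) _
  have h6 : M0 + 1 ≤ 2 ^ (Lv f + 1) := by
    rw [hLv]; exact Nat.lt_pow_succ_log_self (by norm_num) _
  have h7 : 2 ^ (100 * f) < kap f ^ 2 := by
    refine h5.trans_le ((Nat.pow_le_pow_right (by omega) h6).trans (le_of_eq ?_))
    rw [kap, mL, ← pow_mul, pow_succ]
  have h8 : 2 ^ (50 * f) < kap f := by
    have : (2 ^ (50 * f)) ^ 2 < kap f ^ 2 := by
      rw [← pow_mul]; convert h7 using 2; ring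
    exact lt_of_pow_lt_pow_left₀ 2 (Nat.zero_le _) this
  have h9 : mL f ≤ 100 * f := by
    have : 2 ^ mL f ≤ 2 ^ (100 * f) := (Nat.pow_le_pow_left h2 _).trans hkap
    exact (Nat.pow_le_pow_iff_right (by norm_num)).1 this
  have hD1 : n1 f ^ 8 ≤ DB f := Nat.le_pow_clog (by norm_num) _
  have hn4 : 1 < n1 f ^ 8 := Nat.one_lt_pow (by norm_num) (by omega)
  have hD2 : DB f ≤ 2 * n1 f ^ 8 := by
    have h := Nat.pow_pred_clog_lt_self (b := 2) (by norm_num) hn4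
    have hpos : 0 < Nat.clog 2 (n1 f ^ 8) := Nat.clog_pos (by norm_num) (by omega)
    have : DB f = 2 * 2 ^ (Nat.clog 2 (n1 f ^ 8)).pred := by
      rw [DB, dB]
      conv_lhs => rw [← Nat.succ_pred_eq_of_pos hpos]
      rw [pow_succ]; ring
    omega
  have hD3 : DB f ≤ n1 f ^ 9 := by
    refine hD2.trans ?_
    rw [pow_succ (n1 f) 8, mul_comm (n1 f ^ 8)]
    exact Nat.mul_le_mul_right _ h2
  have hDp : DB f ^ mL f ≤ 2 ^ (900 * f) := by
    calc DB f ^ mL f ≤ (n1 f ^ 9) ^ mL f := Nat.pow_le_pow_left hD3 _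
      _ = kap f ^ 9 := by rw [kap, ← pow_mul, ← pow_mul]; congr 1; ring
      _ ≤ (2 ^ (100 * f)) ^ 9 := Nat.pow_le_pow_left hkap _
      _ = 2 ^ (900 * f) := by rw [← pow_mul]; congr 1; ring
  have hDq : dB f ≤ eF f := by
    have h1 : DB f ≤ 2 ^ f := hD3.trans ((Nat.pow_le_pow_right (by omega) (by norm_num)).trans h10)
    have h2 : dB f ≤ f := (Nat.pow_le_pow_iff_right (by norm_num)).1 h1
    simp only [eF]; omega
  have hnge : 1000 * f ≤ n1 f := by
    rw [n1_eq]; nlinarith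
  have hnP : 1000 * nP f ≤ n1 f ^ 2 := by
    rw [nP_eq, n1_eq]
    have : (62500 * f ^ 2) ^ 2 = 3906250000 * (f * f ^ 3) := by ring
    rw [this]
    have h : 1000 * f ^ 3 ≤ f * f ^ 3 := Nat.mul_le_mul_right _ hf
    omega
  have hloss : (2 * mP f + 1) * ((nP f - 1) * mP f) ≤ n1 f ^ 4 := by
    have e1 : (2 * mP f + 1) ≤ 5001 * f := by simp only [mP]; omega
    have e2 : (nP f - 1) * mP f ≤ (156250000 * f ^ 3) * (2500 * f) :=
      Nat.mul_le_mul ((Nat.sub_le _ _).trans (le_of_eq (nP_eq f))) le_rfl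
    refine (Nat.mul_le_mul e1 e2).trans ?_
    rw [n1_eq]
    have h : (5001 * f) * ((156250000 * f ^ 3) * (2500 * f)) = 1953515625000000 * f ^ 5 := by ring
    have h' : (62500 * f ^ 2) ^ 4 = 15258789062500000000 * (f ^ 3 * f ^ 5) := by ring
    rw [h, h']
    have h'' : f ^ 5 ≤ f ^ 3 * f ^ 5 := Nat.le_mul_of_pos_left _ (by positivity)
    omega
  exact ⟨hf, hnge, hn1, h10, hnP, hkap, h8, h9, hD1, hD3, hDq, hDp, hloss⟩

end Vale.Agent.P318.H460
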